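import Vale.Agent.P075.R.Defs
import Mathlib

/-!
# P075, Question 1, block BELL: `StLev → StBell` (change of variables)
-/

namespace Vale.Agent.P075.R

open MeasureTheory Matrix Filter Topology Vale.Agent.P075

theorem ent_int {G₀ G₁ G₂ : ℝ × ℝ → ℝ} (h₀ : CC G₀) (h₁ : CC G₁) (h₂ : CC G₂) (u : ℝ) :
    Integrable (fun p : ℝ × ℝ =>
      G₀ (p.1, p.2) * G₁ (p.2, u - p.1 - p.2) * G₂ (u - p.1 - p.2, p.1)) volume := by
  have c0 := h₀.1
  have c1 := h₁.1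
  have c2 := h₂.1
  refine Continuous.integrable_of_hasCompactSupport (by fun_prop) ?_
  have h : HasCompactSupport (fun p : ℝ × ℝ => G₀ (p.1, p.2)) := h₀.2
  exact h.mul_right.mul_right

/-- integrand of one triple of entries -/
noncomputable def ent (G₀ G₁ G₂ : ℝ × ℝ → ℝ) (s a b c : ℝ) (p : ℝ × ℝ) : ℝ :=
  G₀ (p.1 + a, p.2 + b) * G₁ (p.2 + b, s - p.1 - p.2 + c) * G₂ (s - p.1 - p.2 + c, p.1 + a)

theorem ent_eq (G₀ G₁ G₂ : ℝ × ℝ → ℝ) (s a b c : ℝ) :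
    ent G₀ G₁ G₂ s a b c = fun p : ℝ × ℝ => (fun p : ℝ × ℝ =>
      G₀ (p.1, p.2) * G₁ (p.2, (s + (a + b + c)) - p.1 - p.2)
        * G₂ ((s + (a + b + c)) - p.1 - p.2, p.1)) (p + (a, b)) := by
  funext p
  have e : (s + (a + b + c)) - (p + (a, b)).1 - (p + (a, b)).2 = s - p.1 - p.2 + c := by
    simp only [Prod.fst_add, Prod.snd_add]
    ring
  simp only [ent, e]
  rfl

theorem ent_integrable {G₀ G₁ G₂ : ℝ × ℝ → ℝ} (h₀ : CC G₀) (h₁ : CC G₁) (h₂ : CC G₂)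
    (s a b c : ℝ) : Integrable (ent G₀ G₁ G₂ s a b c) volume := by
  rw [ent_eq]
  exact (ent_int h₀ h₁ h₂ _).comp_add_right _

theorem ent_integral (G₀ G₁ G₂ : ℝ × ℝ → ℝ) (s a b c : ℝ) :
    ∫ p, ent G₀ G₁ G₂ s a b c p = W G₀ G₁ G₂ (s + (a + b + c)) := by
  rw [ent_eq, integral_add_right_eq_self (μ := (volume : Measure (ℝ × ℝ))) (fun p : ℝ × ℝ =>
      G₀ (p.1, p.2) * G₁ (p.2, (s + (a + b + c)) - p.1 - p.2)
        * G₂ ((s + (a + b + c)) - p.1 - p.2, p.1)) (a, b)]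
  rfl

/-- the discrete form as the integral of the matrix form -/
theorem Ad_eq {G₀ G₁ G₂ : ℝ × ℝ → ℝ} (h₀ : CC G₀) (h₁ : CC G₁) (h₂ : CC G₂) (η : ℝ) (k : ℕ) :
    Ad (W G₀ G₁ G₂) (k + 1) (2 ^ (k + 1) * η) = ((8 : ℝ) ^ (k + 1))⁻¹ *
      ∫ p : ℝ × ℝ, T3 (rad (Ix k)) (smp' η k G₀ p)
        (smp' η k G₁ (p.2, -3 * 2 ^ k * η - p.1 - p.2))
        (smp' η k G₂ (-3 * 2 ^ k * η - p.1 - p.2, p.1)) := by
  have e : ∀ p : ℝ × ℝ, T3 (rad (Ix k)) (smp' η k G₀ p)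
        (smp' η k G₁ (p.2, -3 * 2 ^ k * η - p.1 - p.2))
        (smp' η k G₂ (-3 * 2 ^ k * η - p.1 - p.2, p.1))
      = ∑ i : Ix k ⊕ Ix k, ∑ j : Ix k ⊕ Ix k, ∑ l : Ix k ⊕ Ix k,
        ent G₀ G₁ G₂ (-3 * 2 ^ k * η) (η * val (k + 1) i) (η * val (k + 1) j)
          (η * val (k + 1) l) p
        * (sg (k + 1) (val (k + 1) i) * sg (k + 1) (val (k + 1) j)
          * sg (k + 1) (val (k + 1) l)) := by
    intro p
    rw [rad_diag, T3_eq_sum]
    rfl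
  have hint : ∀ i j l : Ix k ⊕ Ix k, Integrable (fun p => ent G₀ G₁ G₂ (-3 * 2 ^ k * η)
        (η * val (k + 1) i) (η * val (k + 1) j) (η * val (k + 1) l) p
        * (sg (k + 1) (val (k + 1) i) * sg (k + 1) (val (k + 1) j)
          * sg (k + 1) (val (k + 1) l))) volume := fun i j l =>
    (ent_integrable h₀ h₁ h₂ _ _ _ _).mul_const _
  simp only [e]
  rw [integral_finsetSum _ (fun i _ => integrable_finsetSum _ (fun j _ =>
    integrable_finsetSum _ (fun l _ => hint i j l)))]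
  rw [Ad]
  congr 1
  rw [← sum_val (k + 1)]
  change ∑ i : Ix k ⊕ Ix k, _ = _
  refine Finset.sum_congr rfl (fun i _ => ?_)
  rw [integral_finsetSum _ (fun j _ => integrable_finsetSum _ (fun l _ => hint i j l))]
  rw [← sum_val (k + 1)]
  change ∑ j : Ix k ⊕ Ix k, _ = _
  refine Finset.sum_congr rfl (fun j _ => ?_)
  rw [integral_finsetSum _ (fun l _ => hint i j l)]
  rw [← sum_val (k + 1)]
  change ∑ l : Ix k ⊕ Ix k, _ = _
  refine Finset.sum_congr rfl (fun l _ => ?_)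
  rw [integral_mul_const, ent_integral]
  rw [mul_comm]
  congr 2
  have h2 : ((2 : ℝ) ^ (k + 1)) ≠ 0 := by positivity
  rw [mul_sub, mul_div_assoc', mul_comm (2 ^ (k + 1)) η, pow_succ]
  field_simp
  ring

theorem bell_of (h : StLev) : StBell := by
  obtain ⟨C, hC⟩ := h
  refine ⟨C, fun G₀ G₁ G₂ h₀ h₁ h₂ t ht m hm J => ?_⟩
  have hη : 0 < t / 2 ^ m := by positivity
  refine le_trans ?_ (hC G₀ G₁ G₂ h₀ h₁ h₂ (t / 2 ^ m) hη (m + J - 1))
  set f : ℕ → ℝ := fun k => ((8 : ℝ) ^ (k + 1))⁻¹ *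
    |∫ p : ℝ × ℝ, T3 (rad (Ix k)) (smp' (t / 2 ^ m) k G₀ p)
      (smp' (t / 2 ^ m) k G₁ (p.2, -3 * 2 ^ k * (t / 2 ^ m) - p.1 - p.2))
      (smp' (t / 2 ^ m) k G₂ (-3 * 2 ^ k * (t / 2 ^ m) - p.1 - p.2, p.1))| with hf
  have hf0 : ∀ k, 0 ≤ f k := fun k => by positivity
  have key : ∀ j, |Ad (W G₀ G₁ G₂) (m + j) (2 ^ j * t)| = f (m - 1 + j) := by
    intro j
    have e1 : m + j = (m - 1 + j) + 1 := by omega
    have e2 : (2 : ℝ) ^ j * t = 2 ^ ((m - 1 + j) + 1) * (t / 2 ^ m) := by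
      rw [← e1, pow_add]
      field_simp
    rw [e2, e1, Ad_eq h₀ h₁ h₂, abs_mul, abs_of_pos (by positivity)]
  calc ∑ j ∈ Finset.range (J + 1), |Ad (W G₀ G₁ G₂) (m + j) (2 ^ j * t)|
      = ∑ j ∈ Finset.range (J + 1), f (m - 1 + j) := Finset.sum_congr rfl fun j _ => key j
    _ = ∑ k ∈ (Finset.range (J + 1)).image (fun j => m - 1 + j), f k := by
        rw [Finset.sum_image]
        intro a _ b _ hab
        simpa using hab
    _ ≤ ∑ k ∈ Finset.Icc 1 (m + J - 1), f k := by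
        refine Finset.sum_le_sum_of_subset_of_nonneg ?_ (fun k _ _ => hf0 k)
        intro k hk
        rw [Finset.mem_image] at hk
        obtain ⟨j, hj, rfl⟩ := hk
        rw [Finset.mem_range] at hj
        rw [Finset.mem_Icc]
        omega

end Vale.Agent.P075.R
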