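import Vale.Agent.P075.R.Defs

/-!
# P075, block CAL (helper47): from the single scale forms to the truncated kernel `1/u`
-/

namespace Vale.Agent.P075.R

open MeasureTheory Filter Topology intervalIntegral Set

namespace Cal

noncomputable section

/-- antiderivative from `0` -/
def A (g : ℝ → ℝ) (y : ℝ) : ℝ := ∫ u in (0 : ℝ)..y, g u

theorem A_deriv {g : ℝ → ℝ} (hg : Continuous g) (y : ℝ) : HasDerivAt (A g) (g y) y :=
  (hg.integral_hasStrictDerivAt 0 y).hasDerivAt

theorem A_cont {g : ℝ → ℝ} (hg : Continuous g) : Continuous (A g) :=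
  continuous_iff_continuousAt.2 fun y => (A_deriv hg y).continuousAt

theorem A_zero (g : ℝ → ℝ) : A g 0 = 0 := by simp [A]

theorem A_bound {g : ℝ → ℝ} {y C : ℝ} (h : ∀ u, |u| ≤ |y| → |g u| ≤ C) : |A g y| ≤ C * |y| := by
  have := intervalIntegral.norm_integral_le_of_norm_le_const (a := 0) (b := y) (f := g) (C := C)
    (fun u hu => by
      rw [Real.norm_eq_abs]
      apply h
      rcases le_total 0 y with h0 | h0
      · rw [uIoc_of_le h0] at hu
        rw [abs_of_nonneg hu.1.le, abs_of_nonneg h0]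
        exact hu.2
      · rw [uIoc_of_ge h0] at hu
        rw [abs_of_nonpos hu.2, abs_of_nonpos h0]
        linarith [hu.1])
  simpa [A, Real.norm_eq_abs] using this

/-! ### the Haar sign -/

theorem haar {g Γ : ℝ → ℝ} (hg : Continuous g) (hΓ : ∀ x, HasDerivAt Γ (g x) x) {t : ℝ}
    (ht : t ≠ 0) (x : ℝ) :
    ∫ p in (0 : ℝ)..1, rho p * g (x + t * (p - 1 / 2)) =
      (2 * Γ x - Γ (x - t / 2) - Γ (x + t / 2)) / t := by
  have hc : Continuous fun p : ℝ => g (x + t * (p - 1 / 2)) := by fun_prop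
  have hF : ∀ p : ℝ, HasDerivAt (fun p => Γ (x + t * (p - 1 / 2)) / t)
      (g (x + t * (p - 1 / 2))) p := by
    intro p
    have h1 : HasDerivAt (fun p : ℝ => x + t * (p - 1 / 2)) t p := by
      have := (((hasDerivAt_id p).sub_const (1 / 2)).const_mul t).const_add x
      simpa using this
    have h2 := ((hΓ (x + t * (p - 1 / 2))).comp p h1).div_const t
    rwa [mul_div_assoc, div_self ht, mul_one] at h2
  have hne : ∀ᵐ p : ℝ, p ≠ 1 / 2 := by
    rw [ae_iff]
    simp
  have e1 : ∀ᵐ p : ℝ, p ∈ uIoc (0 : ℝ) (1 / 2) →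
      g (x + t * (p - 1 / 2)) = rho p * g (x + t * (p - 1 / 2)) := by
    filter_upwards [hne] with p hp hm
    rw [uIoc_of_le (by norm_num)] at hm
    have : p < 1 / 2 := lt_of_le_of_ne hm.2 hp
    rw [rho, if_pos this, one_mul]
  have e2 : ∀ᵐ p : ℝ, p ∈ uIoc (1 / 2 : ℝ) 1 →
      -g (x + t * (p - 1 / 2)) = rho p * g (x + t * (p - 1 / 2)) := by
    refine Eventually.of_forall fun p hm => ?_
    rw [uIoc_of_le (by norm_num)] at hm
    have : ¬ p < 1 / 2 := not_lt.2 hm.1.le
    rw [rho, if_neg this, neg_one_mul]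
  have i1 : IntervalIntegrable (fun p => rho p * g (x + t * (p - 1 / 2))) volume 0 (1 / 2) := by
    refine (hc.intervalIntegrable 0 (1 / 2)).congr_ae ?_
    exact (ae_restrict_iff' measurableSet_uIoc).2 e1
  have i2 : IntervalIntegrable (fun p => rho p * g (x + t * (p - 1 / 2))) volume (1 / 2) 1 := by
    refine (hc.neg.intervalIntegrable (1 / 2) 1).congr_ae ?_
    exact (ae_restrict_iff' measurableSet_uIoc).2 e2
  rw [← integral_add_adjacent_intervals i1 i2, ← integral_congr_ae e1, ← integral_congr_ae e2,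
    intervalIntegral.integral_neg,
    integral_eq_sub_of_hasDerivAt (fun p _ => hF p) (hc.intervalIntegrable _ _),
    integral_eq_sub_of_hasDerivAt (fun p _ => hF p) (hc.intervalIntegrable _ _)]
  have a1 : x + t * ((1 : ℝ) / 2 - 1 / 2) = x := by ring
  have a2 : x + t * ((0 : ℝ) - 1 / 2) = x - t / 2 := by ring
  have a3 : x + t * ((1 : ℝ) - 1 / 2) = x + t / 2 := by ring
  rw [a1, a2, a3]
  ring

/-- the second difference at distance `t / 2`, divided by `t` -/
def D (t : ℝ) (Γ : ℝ → ℝ) (x : ℝ) : ℝ := (2 * Γ x - Γ (x - t / 2) - Γ (x + t / 2)) / t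

theorem D_deriv {Γ g : ℝ → ℝ} (h : ∀ x, HasDerivAt Γ (g x) x) (t x : ℝ) :
    HasDerivAt (D t Γ) (D t g x) x := by
  have h1 : HasDerivAt (fun x => Γ (x - t / 2)) (g (x - t / 2)) x :=
    HasDerivAt.comp_sub_const x (t / 2) (h (x - t / 2))
  have h2 : HasDerivAt (fun x => Γ (x + t / 2)) (g (x + t / 2)) x :=
    HasDerivAt.comp_add_const x (t / 2) (h (x + t / 2))
  exact ((((h x).const_mul 2).sub h1).sub h2).div_const t

theorem D_cont {g : ℝ → ℝ} (hg : Continuous g) (t : ℝ) : Continuous (D t g) := by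
  unfold D
  fun_prop

theorem Ac_eq_D {w : ℝ → ℝ} (hw : Continuous w) {t : ℝ} (ht : t ≠ 0) :
    Ac w t = D t (D t (D t (A (A (A w))))) 0 := by
  have c1 := A_cont hw
  have c2 := A_cont c1
  have s1 : ∀ p q : ℝ, ∫ z in (0 : ℝ)..1, rho p * rho q * rho z * w (t * (p + q + z - 3 / 2)) =
      rho p * (rho q * D t (A w) ((0 + t * (p - 1 / 2)) + t * (q - 1 / 2))) := by
    intro p q
    have := haar hw (A_deriv hw) ht ((0 + t * (p - 1 / 2)) + t * (q - 1 / 2))
    rw [D, ← this, ← mul_assoc, ← intervalIntegral.integral_const_mul]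
    apply intervalIntegral.integral_congr
    intro z _
    simp only
    have e : t * (p + q + z - 3 / 2) =
        (0 + t * (p - 1 / 2)) + t * (q - 1 / 2) + t * (z - 1 / 2) := by ring
    rw [e]
    ring
  have s2 : ∀ p : ℝ, ∫ q in (0 : ℝ)..1,
      rho p * (rho q * D t (A w) ((0 + t * (p - 1 / 2)) + t * (q - 1 / 2))) =
      rho p * D t (D t (A (A w))) (0 + t * (p - 1 / 2)) := by
    intro p
    have := haar (D_cont c1 t) (D_deriv (A_deriv c1) t) ht (0 + t * (p - 1 / 2))
    rw [intervalIntegral.integral_const_mul, this]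
    rfl
  unfold Ac
  simp only [s1, s2]
  rw [haar (D_cont (D_cont c2 t) t) (D_deriv (D_deriv (A_deriv c2) t) t) ht 0]
  rfl

/-! ### the even third antiderivative -/

section U

variable {w : ℝ → ℝ}

def U0 (w : ℝ → ℝ) (y : ℝ) : ℝ := A (A (A w)) y + A (A (A w)) (-y)
def U1 (w : ℝ → ℝ) (y : ℝ) : ℝ := A (A w) y - A (A w) (-y)
def U2 (w : ℝ → ℝ) (y : ℝ) : ℝ := A w y + A w (-y)

theorem U0_deriv (hw : Continuous w) (y : ℝ) : HasDerivAt (U0 w) (U1 w y) y := by
  have c2 := A_cont (A_cont hw)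
  have h := (A_deriv c2 y).add ((A_deriv c2 (-y)).comp y (hasDerivAt_neg y))
  refine h.congr_deriv ?_
  unfold U1
  ring

theorem U1_deriv (hw : Continuous w) (y : ℝ) : HasDerivAt (U1 w) (U2 w y) y := by
  have c1 := A_cont hw
  have h := (A_deriv c1 y).sub ((A_deriv c1 (-y)).comp y (hasDerivAt_neg y))
  refine h.congr_deriv ?_
  unfold U2
  ring

theorem U2_deriv (hw : Continuous w) (y : ℝ) : HasDerivAt (U2 w) (w y - w (-y)) y := by
  have h := (A_deriv hw y).add ((A_deriv hw (-y)).comp y (hasDerivAt_neg y))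
  refine h.congr_deriv ?_
  ring

theorem U0_cont (hw : Continuous w) : Continuous (U0 w) :=
  continuous_iff_continuousAt.2 fun y => (U0_deriv hw y).continuousAt

theorem Ac_eq {t : ℝ} (hw : Continuous w) (ht : 0 < t) :
    Ac w t = -(U0 w (3 / 2 * t) - 6 * U0 w t + 15 * U0 w (1 / 2 * t)) / t ^ 3 := by
  rw [Ac_eq_D hw ht.ne']
  unfold D U0
  have z : A (A (A w)) 0 = 0 := A_zero _
  have e1 : (0 : ℝ) - t / 2 - t / 2 - t / 2 = -(3 / 2 * t) := by ring
  have e2 : (0 : ℝ) - t / 2 - t / 2 + t / 2 = -(1 / 2 * t) := by ring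
  have e3 : (0 : ℝ) - t / 2 + t / 2 - t / 2 = -(1 / 2 * t) := by ring
  have e4 : (0 : ℝ) - t / 2 + t / 2 + t / 2 = 1 / 2 * t := by ring
  have e5 : (0 : ℝ) + t / 2 - t / 2 - t / 2 = -(1 / 2 * t) := by ring
  have e6 : (0 : ℝ) + t / 2 - t / 2 + t / 2 = 1 / 2 * t := by ring
  have e7 : (0 : ℝ) + t / 2 + t / 2 - t / 2 = 1 / 2 * t := by ring
  have e8 : (0 : ℝ) + t / 2 + t / 2 + t / 2 = 3 / 2 * t := by ring
  have f1 : (0 : ℝ) - t / 2 - t / 2 = -t := by ring
  have f2 : (0 : ℝ) - t / 2 + t / 2 = 0 := by ring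
  have f3 : (0 : ℝ) + t / 2 - t / 2 = 0 := by ring
  have f4 : (0 : ℝ) + t / 2 + t / 2 = t := by ring
  have g1 : (0 : ℝ) - t / 2 = -(1 / 2 * t) := by ring
  have g2 : (0 : ℝ) + t / 2 = 1 / 2 * t := by ring
  rw [e1, e2, e3, e4, e5, e6, e7, e8, f1, f2, f3, f4, g1, g2, z]
  field_simp
  ring

variable {S : ℝ}

theorem bd1 (hS : ∀ u, |w u| ≤ S) (y : ℝ) : |A w y| ≤ S * |y| := A_bound fun u _ => hS u

theorem bd2 (h0 : 0 ≤ S) (hS : ∀ u, |w u| ≤ S) (y : ℝ) : |A (A w) y| ≤ S * |y| * |y| :=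
  A_bound fun u hu => (bd1 hS u).trans (mul_le_mul_of_nonneg_left hu h0)

theorem bd3 (h0 : 0 ≤ S) (hS : ∀ u, |w u| ≤ S) (y : ℝ) :
    |A (A (A w)) y| ≤ S * |y| * |y| * |y| :=
  A_bound fun u hu => (bd2 h0 hS u).trans (by gcongr)

/-- the boundary term -/
def P (w : ℝ → ℝ) (y : ℝ) : ℝ := U0 w y / (3 * y ^ 3) + U1 w y / (6 * y ^ 2) + U2 w y / (6 * y)

theorem P_bound (h0 : 0 ≤ S) (hS : ∀ u, |w u| ≤ S) {y : ℝ} (hy : 0 < y) :
    |P w y| ≤ 4 / 3 * S := by
  have b0 : |U0 w y| ≤ 2 * S * y ^ 3 := by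
    have h1 := bd3 h0 hS y
    have h2 := bd3 h0 hS (-y)
    rw [abs_neg] at h2
    rw [abs_of_pos hy] at h1 h2
    unfold U0
    refine (abs_add_le _ _).trans ?_
    linarith
  have b1 : |U1 w y| ≤ 2 * S * y ^ 2 := by
    have h1 := bd2 h0 hS y
    have h2 := bd2 h0 hS (-y)
    rw [abs_neg] at h2
    rw [abs_of_pos hy] at h1 h2
    unfold U1
    refine (abs_sub _ _).trans ?_
    linarith
  have b2 : |U2 w y| ≤ 2 * S * y := by
    have h1 := bd1 hS y
    have h2 := bd1 hS (-y)
    rw [abs_neg] at h2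
    rw [abs_of_pos hy] at h1 h2
    unfold U2
    refine (abs_add_le _ _).trans ?_
    linarith
  have c0 : |U0 w y / (3 * y ^ 3)| ≤ 2 / 3 * S := by
    rw [abs_div, abs_of_pos (by positivity : (0 : ℝ) < 3 * y ^ 3), div_le_iff₀ (by positivity)]
    linarith
  have c1 : |U1 w y / (6 * y ^ 2)| ≤ 1 / 3 * S := by
    rw [abs_div, abs_of_pos (by positivity : (0 : ℝ) < 6 * y ^ 2), div_le_iff₀ (by positivity)]
    linarith
  have c2 : |U2 w y / (6 * y)| ≤ 1 / 3 * S := by
    rw [abs_div, abs_of_pos (by positivity : (0 : ℝ) < 6 * y), div_le_iff₀ (by positivity)]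
    linarith
  unfold P
  refine (abs_add_three _ _ _).trans ?_
  linarith

/-- the kernel integrand -/
def V (w : ℝ → ℝ) (y : ℝ) : ℝ := (w y - w (-y)) / y

theorem P_deriv (hw : Continuous w) {y : ℝ} (hy : 0 < y) :
    HasDerivAt (P w) (V w y / 6 - U0 w y / y ^ 4) y := by
  have h0 := (U0_deriv hw y).div ((hasDerivAt_pow 3 y).const_mul 3) (by positivity)
  have h1 := (U1_deriv hw y).div ((hasDerivAt_pow 2 y).const_mul 6) (by positivity)
  have h2 := (U2_deriv hw y).div ((hasDerivAt_id y).const_mul 6) (by simpa using hy.ne')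
  refine ((h0.add h1).add h2).congr_deriv ?_
  unfold V
  simp only [id_eq]
  field_simp
  ring

theorem V_contOn (hw : Continuous w) : ContinuousOn (V w) (Ioi 0) := by
  unfold V
  refine ContinuousOn.div ?_ continuousOn_id fun y hy => (ne_of_gt hy)
  exact (hw.sub (hw.comp continuous_neg)).continuousOn

theorem uIcc_sub {a b : ℝ} (ha : 0 < a) (hb : 0 < b) : uIcc a b ⊆ Ioi 0 := fun _ hx =>
  lt_of_lt_of_le (lt_min ha hb) hx.1

theorem V_int (hw : Continuous w) {a b : ℝ} (ha : 0 < a) (hb : 0 < b) :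
    IntervalIntegrable (V w) volume a b :=
  ((V_contOn hw).mono (uIcc_sub ha hb)).intervalIntegrable

theorem U_contOn (hw : Continuous w) : ContinuousOn (fun y => U0 w y / y ^ 4) (Ioi 0) :=
  ContinuousOn.div (U0_cont hw).continuousOn (by fun_prop) fun y hy => by
    have : 0 < y := hy
    positivity

theorem U_int (hw : Continuous w) {a b : ℝ} (ha : 0 < a) (hb : 0 < b) :
    IntervalIntegrable (fun y => U0 w y / y ^ 4) volume a b :=
  ((U_contOn hw).mono (uIcc_sub ha hb)).intervalIntegrable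

theorem U_eq (hw : Continuous w) {a b : ℝ} (ha : 0 < a) (hb : 0 < b) :
    ∫ y in a..b, U0 w y / y ^ 4 = (∫ y in a..b, V w y) / 6 - (P w b - P w a) := by
  have h := integral_eq_sub_of_hasDerivAt (fun y hy => P_deriv hw (uIcc_sub ha hb hy))
    (((V_int hw ha hb).div_const 6).sub (U_int hw ha hb))
  rw [intervalIntegral.integral_sub ((V_int hw ha hb).div_const 6) (U_int hw ha hb),
    intervalIntegral.integral_div] at h
  linarith

theorem V_near (hS : ∀ u, |w u| ≤ S) {a c : ℝ} (ha : 0 < a)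
    (hc : 1 / 2 ≤ c) (hc2 : c ≤ 3 / 2) : |∫ y in (c * a)..a, V w y| ≤ 2 * S := by
  have h := intervalIntegral.norm_integral_le_of_norm_le_const (a := c * a) (b := a)
    (f := V w) (C := 4 * S / a) (fun y hy => by
      have hya : a / 2 < y := by
        refine lt_of_le_of_lt ?_ hy.1
        refine le_min ?_ ?_
        · nlinarith
        · linarith
      have hy0 : 0 < y := by linarith
      rw [Real.norm_eq_abs, V, abs_div, abs_of_pos hy0, div_le_div_iff₀ hy0 ha]
      have h1 : |w y - w (-y)| ≤ 2 * S := by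
        refine (abs_sub _ _).trans ?_
        linarith [hS y, hS (-y)]
      have h2 : 0 ≤ S := (abs_nonneg _).trans (hS 0)
      calc |w y - w (-y)| * a ≤ 2 * S * a := by gcongr
        _ ≤ 4 * S * y := by nlinarith)
  rw [Real.norm_eq_abs] at h
  refine h.trans ?_
  have h2 : 0 ≤ S := (abs_nonneg _).trans (hS 0)
  have h3 : |a - c * a| ≤ a / 2 := by
    rw [abs_le]
    constructor <;> nlinarith
  calc 4 * S / a * |a - c * a| ≤ 4 * S / a * (a / 2) := by gcongr
    _ = 2 * S := by field_simp; ring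

/-- scaled version -/
theorem U_scaled (hw : Continuous w) (hS : ∀ u, |w u| ≤ S) {ε R c : ℝ} (hε : 0 < ε)
    (hR : 0 < R) (hc : 1 / 2 ≤ c) (hc2 : c ≤ 3 / 2) :
    |(∫ t in ε..R, U0 w (c * t) / t ^ 4) - c ^ 3 * ((∫ y in ε..R, V w y) / 6)| ≤
      c ^ 3 * (10 / 3 * S) := by
  have hc0 : 0 < c := by linarith
  have h0 : 0 ≤ S := (abs_nonneg _).trans (hS 0)
  have e1 : ∫ t in ε..R, U0 w (c * t) / t ^ 4 = c ^ 3 * ∫ y in (c * ε)..(c * R), U0 w y / y ^ 4 := by
    have h := intervalIntegral.integral_comp_mul_left (a := ε) (b := R)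
      (fun y => U0 w y / y ^ 4) hc0.ne'
    rw [smul_eq_mul] at h
    have e2 : ∫ t in ε..R, U0 w (c * t) / t ^ 4 =
        ∫ t in ε..R, c ^ 4 * (U0 w (c * t) / (c * t) ^ 4) := by
      apply intervalIntegral.integral_congr
      intro t ht
      have ht0 : 0 < t := uIcc_sub hε hR ht
      simp only
      field_simp
    rw [e2, intervalIntegral.integral_const_mul, h]
    field_simp
  have e3 : ∫ y in (c * ε)..(c * R), V w y = (∫ y in (c * ε)..ε, V w y) +
      (∫ y in ε..R, V w y) - ∫ y in (c * R)..R, V w y := by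
    have i1 := V_int hw (mul_pos hc0 hε) hε
    have i2 := V_int hw hε hR
    have i3 := V_int hw (mul_pos hc0 hR) hR
    rw [intervalIntegral.integral_add_adjacent_intervals i1 i2, sub_eq_add_neg,
      ← intervalIntegral.integral_symm,
      intervalIntegral.integral_add_adjacent_intervals (i1.trans i2) i3.symm]
  have n1 := V_near hS hε hc hc2
  have n2 := V_near hS hR hc hc2
  have p1 := P_bound h0 hS (mul_pos hc0 hε)
  have p2 := P_bound h0 hS (mul_pos hc0 hR)
  rw [e1, U_eq hw (mul_pos hc0 hε) (mul_pos hc0 hR), ← mul_sub, abs_mul, abs_of_pos (by positivity)]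
  gcongr
  rw [e3]
  rw [abs_le] at *
  constructor <;> linarith [n1.1, n1.2, n2.1, n2.2, p1.1, p1.2, p2.1, p2.2]

theorem Ac_contOn (hw : Continuous w) : ContinuousOn (Ac w) (Ioi 0) := by
  have h : ContinuousOn (fun t : ℝ => -(U0 w (3 / 2 * t) - 6 * U0 w t + 15 * U0 w (1 / 2 * t)) / t ^ 3)
      (Ioi 0) := by
    have c := U0_cont hw
    refine ContinuousOn.div (by fun_prop) (by fun_prop) fun y hy => ?_
    have : 0 < y := hy
    positivity
  exact h.congr fun t ht => Ac_eq hw ht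

theorem Ac_main (hw : Continuous w) (hS : ∀ u, |w u| ≤ S) {ε R : ℝ} (hε : 0 < ε) (hR : 0 < R) :
    |(∫ t in ε..R, Ac w t / t) - (∫ y in ε..R, V w y) / 8| ≤ 75 / 2 * S := by
  have c := U0_cont hw
  have ic : ∀ k : ℝ, IntervalIntegrable (fun t => U0 w (k * t) / t ^ 4) volume ε R := by
    intro k
    refine ContinuousOn.intervalIntegrable ?_
    refine ContinuousOn.mono ?_ (uIcc_sub hε hR)
    refine ContinuousOn.div (by fun_prop) (by fun_prop) fun y hy => ?_
    have : 0 < y := hy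
    positivity
  have e : ∫ t in ε..R, Ac w t / t = -((∫ t in ε..R, U0 w (3 / 2 * t) / t ^ 4) -
      6 * (∫ t in ε..R, U0 w (1 * t) / t ^ 4) + 15 * ∫ t in ε..R, U0 w (1 / 2 * t) / t ^ 4) := by
    rw [← intervalIntegral.integral_const_mul, ← intervalIntegral.integral_const_mul,
      ← intervalIntegral.integral_sub (ic _) ((ic _).const_mul _),
      ← intervalIntegral.integral_add ((ic _).sub ((ic _).const_mul _)) ((ic _).const_mul _),
      ← intervalIntegral.integral_neg]
    apply intervalIntegral.integral_congr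
    intro t ht
    have ht0 : 0 < t := uIcc_sub hε hR ht
    simp only
    rw [Ac_eq hw ht0, one_mul]
    field_simp
  have k1 := U_scaled hw hS hε hR (c := 3 / 2) (by norm_num) le_rfl
  have k2 := U_scaled hw hS hε hR (c := 1) (by norm_num) (by norm_num)
  have k3 := U_scaled hw hS hε hR (c := 1 / 2) le_rfl (by norm_num)
  rw [e]
  rw [abs_le] at *
  constructor <;> nlinarith [k1.1, k1.2, k2.1, k2.2, k3.1, k3.2]

theorem Ac_int (hw : Continuous w) {a b : ℝ} (ha : 0 < a) (hb : 0 < b) :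
    IntervalIntegrable (fun t => |Ac w t| / t) volume a b := by
  refine ContinuousOn.intervalIntegrable ?_
  refine ContinuousOn.mono ?_ (uIcc_sub ha hb)
  exact ContinuousOn.div (Ac_contOn hw).abs continuousOn_id fun y hy => ne_of_gt hy

theorem Ac_dyadic (hw : Continuous w) {K : ℝ}
    (hK : ∀ t : ℝ, 0 < t → ∀ J : ℕ, ∑ j ∈ Finset.range (J + 1), |Ac w (2 ^ j * t)| ≤ K)
    {ε : ℝ} (hε : 0 < ε) (J : ℕ) : ∫ t in ε..(2 ^ (J + 1) * ε), |Ac w t| / t ≤ K := by
  have hpos : ∀ j : ℕ, 0 < 2 ^ j * ε := fun j => by positivity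
  have e1 : ∫ t in ε..(2 ^ (J + 1) * ε), |Ac w t| / t =
      ∑ j ∈ Finset.range (J + 1), ∫ t in (2 ^ j * ε)..(2 ^ (j + 1) * ε), |Ac w t| / t := by
    rw [intervalIntegral.sum_integral_adjacent_intervals (a := fun j : ℕ => 2 ^ j * ε)
      (f := fun t => |Ac w t| / t) fun j _ => Ac_int hw (hpos j) (hpos (j + 1))]
    simp
  have e2 : ∀ j : ℕ, ∫ t in (2 ^ j * ε)..(2 ^ (j + 1) * ε), |Ac w t| / t =
      ∫ t in ε..(2 * ε), |Ac w (2 ^ j * t)| / t := by
    intro j
    have h := intervalIntegral.integral_comp_mul_left (a := ε) (b := 2 * ε)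
      (fun t => |Ac w t| / t) (c := (2 : ℝ) ^ j) (by positivity)
    rw [smul_eq_mul] at h
    have h2 : (2 : ℝ) ^ (j + 1) * ε = 2 ^ j * (2 * ε) := by ring
    rw [h2]
    have h3 : ∫ t in ε..(2 * ε), |Ac w (2 ^ j * t)| / t =
        2 ^ j * ∫ t in ε..(2 * ε), |Ac w (2 ^ j * t)| / (2 ^ j * t) := by
      rw [← intervalIntegral.integral_const_mul]
      apply intervalIntegral.integral_congr
      intro t ht
      have ht0 : 0 < t := uIcc_sub hε (by positivity) ht
      simp only
      field_simp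
    rw [h3, h]
    field_simp
  have i2 : ∀ j : ℕ, IntervalIntegrable (fun t => |Ac w (2 ^ j * t)| / t) volume ε (2 * ε) := by
    intro j
    refine ContinuousOn.intervalIntegrable ?_
    refine ContinuousOn.mono ?_ (uIcc_sub hε (by positivity))
    refine ContinuousOn.div ?_ continuousOn_id fun y hy => ne_of_gt hy
    refine ((Ac_contOn hw).comp (f := fun t : ℝ => 2 ^ j * t) (by fun_prop) fun t ht => ?_).abs
    have : 0 < t := ht
    exact mul_pos (by positivity) this
  rw [e1, Finset.sum_congr rfl fun j _ => e2 j, ← intervalIntegral.integral_finsetSum fun j _ => i2 j]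
  have hK0 : 0 ≤ K := (Finset.sum_nonneg fun _ _ => abs_nonneg _).trans (hK 1 one_pos 0)
  calc ∫ t in ε..(2 * ε), ∑ j ∈ Finset.range (J + 1), |Ac w (2 ^ j * t)| / t
      ≤ ∫ _ in ε..(2 * ε), K / ε := by
        apply intervalIntegral.integral_mono_on (by linarith)
        · have h := IntervalIntegrable.sum (Finset.range (J + 1)) fun j _ => i2 j
          refine h.congr ?_
          intro t _
          simp only [Finset.sum_apply]
        · exact (continuous_const.intervalIntegrable _ _)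
        · intro t ht
          have ht0 : 0 < t := hε.trans_le ht.1
          rw [← Finset.sum_div]
          calc (∑ j ∈ Finset.range (J + 1), |Ac w (2 ^ j * t)|) / t ≤ K / t := by
                gcongr
                exact hK t ht0 J
            _ ≤ K / ε := by
                gcongr
                exact ht.1
    _ = K := by
        rw [intervalIntegral.integral_const, smul_eq_mul]
        field_simp
        ring

end U

end

end Cal

/-- **CAL** -/
theorem cal : StCal := by
  refine ⟨300, fun w hw S K hS hK ε R hε hR => ?_⟩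
  have hc := hw.1
  have hR0 : 0 < R := hε.trans hR
  have h0 : 0 ≤ S := (abs_nonneg _).trans (hS 0)
  have hK0 : 0 ≤ K := (Finset.sum_nonneg fun _ _ => abs_nonneg _).trans (hK 1 one_pos 0)
  obtain ⟨J, hJ⟩ := pow_unbounded_of_one_lt (R / ε) (one_lt_two : (1 : ℝ) < 2)
  have hJ2 : R ≤ 2 ^ (J + 1) * ε := by
    rw [div_lt_iff₀ hε] at hJ
    rw [pow_succ]
    nlinarith
  have m1 := Cal.Ac_main hc hS hε hR0
  have m2 : |∫ t in ε..R, Ac w t / t| ≤ K := by
    have b1 : |∫ t in ε..R, Ac w t / t| ≤ ∫ t in ε..R, |Ac w t| / t := by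
      have := intervalIntegral.norm_integral_le_integral_norm (μ := volume)
        (f := fun t => Ac w t / t) hR.le
      rw [Real.norm_eq_abs] at this
      refine this.trans (le_of_eq ?_)
      apply intervalIntegral.integral_congr
      intro t ht
      have ht0 : 0 < t := Cal.uIcc_sub hε hR0 ht
      simp only
      rw [Real.norm_eq_abs, abs_div, abs_of_pos ht0]
    have b2 : ∫ t in ε..R, |Ac w t| / t ≤ ∫ t in ε..(2 ^ (J + 1) * ε), |Ac w t| / t := by
      have hp : 0 < 2 ^ (J + 1) * ε := by positivity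
      rw [← intervalIntegral.integral_add_adjacent_intervals (Cal.Ac_int hc hε hR0)
        (Cal.Ac_int hc hR0 hp)]
      have : 0 ≤ ∫ t in R..(2 ^ (J + 1) * ε), |Ac w t| / t := by
        apply intervalIntegral.integral_nonneg hJ2
        intro t ht
        exact div_nonneg (abs_nonneg _) (hR0.le.trans ht.1)
      linarith
    exact b1.trans (b2.trans (Cal.Ac_dyadic hc hK hε J))
  have e : ∫ u in ε..R, (w u - w (-u)) / u = ∫ y in ε..R, Cal.V w y := rfl
  rw [e]
  rw [abs_le] at *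
  constructor <;> linarith [m1.1, m1.2, m2.1, m2.2]

end Vale.Agent.P075.R
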