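import Vale.Agent.P075.Bdl.B1
import Mathlib

/-!
# P075, Question 1: the real triangular Hilbert form. Objects and statements of the blocks.
-/

namespace Vale.Agent.P075.R

open MeasureTheory Matrix Filter Topology Vale.Agent.P075

/-! ### one variable objects -/

/-- the Haar sign of the unit interval -/
noncomputable def rho (p : ℝ) : ℝ := if p < 1 / 2 then 1 else -1

/-- discrete single scale form at scale `t`, resolution `2^m` -/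
noncomputable def Ad (w : ℝ → ℝ) (m : ℕ) (t : ℝ) : ℝ :=
  ((8 : ℝ) ^ m)⁻¹ * ∑ i ∈ Finset.range (2 ^ m), ∑ j ∈ Finset.range (2 ^ m),
    ∑ l ∈ Finset.range (2 ^ m),
      sg m i * sg m j * sg m l * w (t * (((i : ℝ) + j + l) / 2 ^ m - 3 / 2))

/-- single scale form at scale `t` -/
noncomputable def Ac (w : ℝ → ℝ) (t : ℝ) : ℝ :=
  ∫ p in (0 : ℝ)..1, ∫ q in (0 : ℝ)..1, ∫ z in (0 : ℝ)..1,
    rho p * rho q * rho z * w (t * (p + q + z - 3 / 2))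

/-- the function of one variable which carries the form -/
noncomputable def W (G₀ G₁ G₂ : ℝ × ℝ → ℝ) (u : ℝ) : ℝ :=
  ∫ p : ℝ × ℝ, G₀ (p.1, p.2) * G₁ (p.2, u - p.1 - p.2) * G₂ (u - p.1 - p.2, p.1)

/-- continuous with compact support -/
def CC {α : Type*} [TopologicalSpace α] (G : α → ℝ) : Prop := Continuous G ∧ HasCompactSupport G

/-- the integral of `|G|^3` -/
noncomputable def I3 (G : ℝ × ℝ → ℝ) : ℝ := ∫ p, |G p| ^ 3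

/-! ### matrices of samples -/

/-- samples of `G` on a box of `2^a × 2^b` points of spacing `η`, lower left corner `p` -/
def smp (η : ℝ) (a b : ℕ) (G : ℝ × ℝ → ℝ) (p : ℝ × ℝ) : Matrix (Ix a) (Ix b) ℝ :=
  fun i j => G (p.1 + η * val a i, p.2 + η * val b j)

/-- the same at size `2^(k+1)`, with index type `Ix k ⊕ Ix k` -/
def smp' (η : ℝ) (k : ℕ) (G : ℝ × ℝ → ℝ) (p : ℝ × ℝ) : Matrix (Ix k ⊕ Ix k) (Ix k ⊕ Ix k) ℝ :=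
  smp η (k + 1) (k + 1) G p

/-- weighted column Gram matrix of the samples, rows `2^a`, columns `2^b` -/
noncomputable def XC (η τ : ℝ) (a b : ℕ) (G : ℝ × ℝ → ℝ) (p : ℝ × ℝ) : Matrix (Ix b) (Ix b) ℝ :=
  ((2 : ℝ) ^ a * 2 ^ b * τ ^ 2)⁻¹ • ((smp η a b G p)ᵀ * smp η a b G p)

/-- the same with `2^(b+1)` columns, index type `Ix b ⊕ Ix b` -/
noncomputable def XS (η τ : ℝ) (a b : ℕ) (G : ℝ × ℝ → ℝ) (p : ℝ × ℝ) :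
    Matrix (Ix b ⊕ Ix b) (Ix b ⊕ Ix b) ℝ := XC η τ a (b + 1) G p

/-- transposed function -/
def flip (G : ℝ × ℝ → ℝ) : ℝ × ℝ → ℝ := fun p => G (p.2, p.1)

/-- energy -/
noncomputable def En (η τ : ℝ) (a b : ℕ) (G : ℝ × ℝ → ℝ) : ℝ := ∫ p, GX (XC η τ a b G p)

/-- mixed energy density on the plane `x + y + z = s` (box corners), rows `2^a`, middle `2^b`,
columns `2^c` -/
noncomputable def mx (η τ : ℝ) (a b c : ℕ) (F H : ℝ × ℝ → ℝ) (s : ℝ) (p : ℝ × ℝ) : ℝ :=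
  (phi (XC η τ a b F p) * phi (XC η τ c b (flip H) (s - p.1 - p.2, p.2))).trace

/-- mixed energy -/
noncomputable def Mx (η τ : ℝ) (a b c : ℕ) (F H : ℝ × ℝ → ℝ) (s : ℝ) : ℝ :=
  ∫ p, mx η τ a b c F H s p

/-- main term density at size `2^(k+1)` -/
noncomputable def mn (η τ : ℝ) (k : ℕ) (F H : ℝ × ℝ → ℝ) (s : ℝ) (p : ℝ × ℝ) : ℝ :=
  (phi (XS η τ (k + 1) k F p)
    * (rad (Ix k) * phi (XS η τ (k + 1) k (flip H) (s - p.1 - p.2, p.2)) * rad (Ix k))).trace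

/-- the kernel integrand of `Λ_{ε,R}` -/
noncomputable def kern (ε R : ℝ) (G₀ G₁ G₂ : ℝ × ℝ → ℂ) (x : ℝ × ℝ × ℝ) : ℂ :=
  if ε < |x.1 + x.2.1 + x.2.2| ∧ |x.1 + x.2.1 + x.2.2| < R then
    G₀ (x.1, x.2.1) * G₁ (x.2.1, x.2.2) * G₂ (x.2.2, x.1) / ((x.1 + x.2.1 + x.2.2 : ℝ) : ℂ)
  else 0

/-! ### statements of the blocks -/

/-- STEP: the Bellman induction over all scales, one level `τ` -/
def StStep : Prop := ∀ (F H : ℝ × ℝ → ℝ), CC F → CC H → ∀ (η τ : ℝ), 0 < η → 0 < τ → ∀ n : ℕ,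
  ∑ k ∈ Finset.Icc 1 n, ∫ p, mn η τ k F H (-3 * 2 ^ k * η) p
    ≤ 45 * ((∫ p, hh (F p ^ 2 / τ ^ 2)) + ∫ p, hh (H p ^ 2 / τ ^ 2))

/-- LEV: sum over the levels -/
def StLev : Prop := ∃ C : ℝ, ∀ (G₀ G₁ G₂ : ℝ × ℝ → ℝ), CC G₀ → CC G₁ → CC G₂ → ∀ (η : ℝ), 0 < η →
  ∀ n : ℕ, ∑ k ∈ Finset.Icc 1 n, ((8 : ℝ) ^ (k + 1))⁻¹ *
    |∫ p : ℝ × ℝ, T3 (rad (Ix k)) (smp' η k G₀ p)
      (smp' η k G₁ (p.2, -3 * 2 ^ k * η - p.1 - p.2))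
      (smp' η k G₂ (-3 * 2 ^ k * η - p.1 - p.2, p.1))| ≤ C * (I3 G₀ + I3 G₁ + I3 G₂)

/-- BELL: the discrete forms of all scales are summable -/
def StBell : Prop := ∃ C : ℝ, ∀ (G₀ G₁ G₂ : ℝ × ℝ → ℝ), CC G₀ → CC G₁ → CC G₂ → ∀ (t : ℝ), 0 < t →
  ∀ m : ℕ, 2 ≤ m → ∀ J : ℕ, ∑ j ∈ Finset.range (J + 1), |Ad (W G₀ G₁ G₂) (m + j) (2 ^ j * t)|
    ≤ C * (I3 G₀ + I3 G₁ + I3 G₂)

/-- LIM: the discrete form converges -/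
def StLim : Prop := ∀ (w : ℝ → ℝ), CC w → ∀ t : ℝ, Tendsto (fun m => Ad w m t) atTop (𝓝 (Ac w t))

/-- CAL: from the single scale forms to the truncated kernel `1/u` -/
def StCal : Prop := ∃ C : ℝ, ∀ (w : ℝ → ℝ), CC w → ∀ (S K : ℝ), (∀ u, |w u| ≤ S) →
  (∀ t : ℝ, 0 < t → ∀ J : ℕ, ∑ j ∈ Finset.range (J + 1), |Ac w (2 ^ j * t)| ≤ K) →
  ∀ ε R : ℝ, 0 < ε → ε < R → |∫ u in ε..R, (w u - w (-u)) / u| ≤ C * (K + S)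

/-- WL: elementary facts on `W` -/
def StW : Prop := ∀ (G₀ G₁ G₂ : ℝ × ℝ → ℝ), CC G₀ → CC G₁ → CC G₂ →
  CC (W G₀ G₁ G₂) ∧ ∀ u, |W G₀ G₁ G₂ u| ≤ (I3 G₀) ^ ((1 : ℝ) / 3) * (I3 G₁) ^ ((1 : ℝ) / 3)
    * (I3 G₂) ^ ((1 : ℝ) / 3)

/-- REAL: the theorem for real continuous functions with compact support -/
def StReal : Prop := ∃ C : ℝ, ∀ (G₀ G₁ G₂ : ℝ × ℝ → ℝ), CC G₀ → CC G₁ → CC G₂ →
  ∀ ε R : ℝ, 0 < ε → ε < R →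
    |∫ u in ε..R, (W G₀ G₁ G₂ u - W G₀ G₁ G₂ (-u)) / u|
      ≤ C * ((I3 G₀) ^ ((1 : ℝ) / 3) * (I3 G₁) ^ ((1 : ℝ) / 3) * (I3 G₂) ^ ((1 : ℝ) / 3))

/-- FULL: Question 1 -/
def StFull : Prop := ∃ C : ℝ, ∀ (G₀ G₁ G₂ : ℝ × ℝ → ℂ), MemLp G₀ 3 volume → MemLp G₁ 3 volume →
  MemLp G₂ 3 volume → ∀ ε R : ℝ, 0 < ε → ε < R →
    Integrable (kern ε R G₀ G₁ G₂) volume ∧
    ‖∫ x, kern ε R G₀ G₁ G₂ x‖ ≤ C * ((eLpNorm G₀ 3 volume).toReal * (eLpNorm G₁ 3 volume).toReal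
      * (eLpNorm G₂ 3 volume).toReal)

end Vale.Agent.P075.R
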