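import Vale.Agent.P075.R.Step
import Vale.Agent.P075.R.H908.Lev
import Vale.Agent.P075.R.Bell
import Vale.Agent.P075.R.H220.Lim
import Vale.Agent.P075.R.H220.Comb
import Vale.Agent.P075.R.H97.Cal
import Vale.Agent.P075.R.H97.WL
import Vale.Agent.P075.R.H903.Fin

/-!
# Assembly: the real triangular Hilbert form is bounded at (3,3,3)
-/

namespace Vale.Agent.P075.R

/-- the real valued form of the theorem -/
theorem real : StReal :=
  H220.real_of (bell_of (H908.lev_of step)) H220.stLim H97.cal H97.wl

/-- Question 1 -/
theorem full : StFull := H903.full_of_real real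

end Vale.Agent.P075.R
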