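import Vale.Agent.P075.R.Pt
import Vale.Agent.P075.R.H908.Lev

/-!
# Continuity, compact support, integrability and invariance of the densities
-/

namespace Vale.Agent.P075.R

open MeasureTheory Matrix Vale.Agent.P075

section maps

theorem mp_sh1 (u : ℝ) :
    MeasurePreserving (fun p : ℝ × ℝ => (p.1 + u, p.2)) volume volume := by
  have h := (measurePreserving_add_right (volume : Measure ℝ) u).prod
    (MeasurePreserving.id (volume : Measure ℝ))
  exact h

theorem mp_sh2 (u : ℝ) :
    MeasurePreserving (fun p : ℝ × ℝ => (p.1, p.2 + u)) volume volume := by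
  have h := (MeasurePreserving.id (volume : Measure ℝ)).prod
    (measurePreserving_add_right (volume : Measure ℝ) u)
  exact h

theorem mp_pl (s : ℝ) :
    MeasurePreserving (fun p : ℝ × ℝ => (s - p.1 - p.2, p.2)) volume volume := by
  have h1 : MeasurePreserving (Prod.swap : ℝ × ℝ → ℝ × ℝ) volume volume :=
    Measure.measurePreserving_swap
  exact h1.comp (H908.mp_rot s)

/-- the reflection in the plane as a measurable equivalence -/
def plE (s : ℝ) : (ℝ × ℝ) ≃ᵐ (ℝ × ℝ) where
  toFun := fun p => (s - p.1 - p.2, p.2)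
  invFun := fun p => (s - p.1 - p.2, p.2)
  left_inv := fun p => by
    ext
    · show s - (s - p.1 - p.2) - p.2 = p.1
      ring
    · rfl
  right_inv := fun p => by
    ext
    · show s - (s - p.1 - p.2) - p.2 = p.1
      ring
    · rfl
  measurable_toFun := by dsimp only [Equiv.coe_fn_mk]; fun_prop
  measurable_invFun := by dsimp only [Equiv.coe_fn_symm_mk]; fun_prop

theorem int_sh1 (u : ℝ) (f : ℝ × ℝ → ℝ) : ∫ p : ℝ × ℝ, f (p.1 + u, p.2) = ∫ p, f p := by
  have h := integral_add_right_eq_self (μ := (volume : Measure (ℝ × ℝ))) f ((u, 0) : ℝ × ℝ)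
  rw [← h]
  refine integral_congr_ae (Filter.Eventually.of_forall fun p => ?_)
  have e : p + ((u, 0) : ℝ × ℝ) = (p.1 + u, p.2) := by ext <;> simp
  simp only [e]

theorem int_sh2 (u : ℝ) (f : ℝ × ℝ → ℝ) : ∫ p : ℝ × ℝ, f (p.1, p.2 + u) = ∫ p, f p := by
  have h := integral_add_right_eq_self (μ := (volume : Measure (ℝ × ℝ))) f ((0, u) : ℝ × ℝ)
  rw [← h]
  refine integral_congr_ae (Filter.Eventually.of_forall fun p => ?_)
  have e : p + ((0, u) : ℝ × ℝ) = (p.1, p.2 + u) := by ext <;> simp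
  simp only [e]

theorem int_pl (s : ℝ) (f : ℝ × ℝ → ℝ) :
    ∫ p : ℝ × ℝ, f (s - p.1 - p.2, p.2) = ∫ p, f p :=
  (mp_pl s).integral_comp (plE s).measurableEmbedding f

theorem int_flip (f : ℝ × ℝ → ℝ) : ∫ p : ℝ × ℝ, f (p.2, p.1) = ∫ p, f p :=
  (Measure.measurePreserving_swap (μ := (volume : Measure ℝ))
    (ν := (volume : Measure ℝ))).integral_comp MeasurableEquiv.prodComm.measurableEmbedding f

variable {f : ℝ × ℝ → ℝ}

theorem ii_sh1 (hf : Integrable f) (u : ℝ) :
    Integrable fun p : ℝ × ℝ => f (p.1 + u, p.2) :=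
  ((mp_sh1 u).integrable_comp hf.aestronglyMeasurable).2 hf

theorem ii_sh2 (hf : Integrable f) (u : ℝ) :
    Integrable fun p : ℝ × ℝ => f (p.1, p.2 + u) :=
  ((mp_sh2 u).integrable_comp hf.aestronglyMeasurable).2 hf

theorem ii_pl (hf : Integrable f) (s : ℝ) :
    Integrable fun p : ℝ × ℝ => f (s - p.1 - p.2, p.2) :=
  ((mp_pl s).integrable_comp hf.aestronglyMeasurable).2 hf

end maps

section dens

variable {n : Type*} [Fintype n] [DecidableEq n]

theorem phi_zero : phi (0 : Matrix n n ℝ) = 0 := by simp [phi, res]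

theorem delt_zero : delt (0 : Matrix n n ℝ) 0 = 0 := by simp [delt, phi_zero]

theorem GX_zero : GX (0 : Matrix n n ℝ) = 0 := by simp [GX, ld]

theorem cont_GX {X : ℝ × ℝ → Matrix n n ℝ} (hX : Continuous X)
    (hp : ∀ a, (X a).PosSemidef) : Continuous fun a => GX (X a) := by
  unfold GX ld
  have h1 : Continuous (fun a => (1 + X a).det) := by fun_prop
  refine hX.matrix_trace.sub (h1.log fun a => (det_pos_one_add (hp a)).ne')

theorem hcs_two {α β : Type*} [Zero α] [Zero β] {f : ℝ × ℝ → ℝ} {A : ℝ × ℝ → α}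
    {B : ℝ × ℝ → β} (hA : HasCompactSupport A) (hB : HasCompactSupport B)
    (h : ∀ p, A p = 0 → B p = 0 → f p = 0) : HasCompactSupport f := by
  refine HasCompactSupport.intro (hA.isCompact.union hB.isCompact) fun p hp => ?_
  exact h p (image_eq_zero_of_notMem_tsupport fun h' => hp (Or.inl h'))
    (image_eq_zero_of_notMem_tsupport fun h' => hp (Or.inr h'))

theorem hcs_sh {α : Type*} [Zero α] {A : ℝ × ℝ → α} (hA : HasCompactSupport A) (u : ℝ) :
    HasCompactSupport fun p : ℝ × ℝ => A (p.1 + u, p.2) := by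
  have h := hA.comp_homeomorph (Homeomorph.addRight ((u, 0) : ℝ × ℝ))
  have e : (fun p : ℝ × ℝ => A (p.1 + u, p.2)) = A ∘ (Homeomorph.addRight ((u, 0) : ℝ × ℝ)) := by
    funext p
    have : p + ((u, 0) : ℝ × ℝ) = (p.1 + u, p.2) := by ext <;> simp
    simp only [Function.comp_apply, Homeomorph.coe_addRight, this]
  rw [e]
  exact h

variable {F H G : ℝ × ℝ → ℝ}

theorem CC.flip (h : CC G) : CC (flip G) := by
  refine ⟨h.1.comp (by fun_prop), ?_⟩
  exact h.2.comp_homeomorph (Homeomorph.prodComm ℝ ℝ)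

theorem cont_smp (η : ℝ) (a b : ℕ) (hG : Continuous G) :
    Continuous (fun p => smp η a b G p) := by
  refine continuous_matrix fun i j => ?_
  unfold smp
  fun_prop

theorem hcs_smp (η : ℝ) (a b : ℕ) (hG : HasCompactSupport G) :
    HasCompactSupport (fun p => smp η a b G p) := by
  have hK : IsCompact (⋃ i : Ix a, ⋃ j : Ix b,
      (Homeomorph.addRight ((η * val a i, η * val b j) : ℝ × ℝ)) ⁻¹' tsupport G) := by
    refine isCompact_iUnion fun i => isCompact_iUnion fun j => ?_
    exact (Homeomorph.isCompact_preimage _).2 hG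
  refine HasCompactSupport.intro hK ?_
  intro p hp
  funext i j
  simp only [Set.mem_iUnion, Set.mem_preimage, not_exists] at hp
  have h := hp i j
  have h2 : G (p + (η * val a i, η * val b j)) = 0 :=
    image_eq_zero_of_notMem_tsupport h
  exact h2

theorem cont_XC (η τ : ℝ) (a b : ℕ) (hG : Continuous G) :
    Continuous (fun p => XC η τ a b G p) := by
  have h := cont_smp η a b hG
  unfold XC
  fun_prop

theorem hcs_XC (η τ : ℝ) (a b : ℕ) (hG : HasCompactSupport G) :
    HasCompactSupport (fun p => XC η τ a b G p) := by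
  refine (hcs_smp η a b hG).mono ?_
  intro p hp
  simp only [Function.mem_support] at hp ⊢
  intro h0
  apply hp
  rw [XC, h0]
  simp

theorem cont_XS (η τ : ℝ) (a b : ℕ) (hG : Continuous G) :
    Continuous (fun p => XS η τ a b G p) := cont_XC η τ a (b + 1) hG

theorem hcs_XS (η τ : ℝ) (a b : ℕ) (hG : HasCompactSupport G) :
    HasCompactSupport (fun p => XS η τ a b G p) := hcs_XC η τ a (b + 1) hG

theorem ii_GX (h : CC G) (η τ : ℝ) (a b : ℕ) :
    Integrable fun p => GX (XC η τ a b G p) :=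
  H908.integrable_cs (cont_GX (cont_XC η τ a b h.1) fun p => XC_psd η τ a b G p)
    (H908.hcs_of_zero (hcs_XC η τ a b h.2) fun p hp => by rw [hp, GX_zero])

theorem cont_sh {α : Type*} [TopologicalSpace α] {A : ℝ × ℝ → α} (hA : Continuous A) (u : ℝ) :
    Continuous fun p : ℝ × ℝ => A (p.1 + u, p.2) := hA.comp (by fun_prop)

theorem ii_dl (h : CC G) (η τ : ℝ) (a b : ℕ) : Integrable fun p => dl η τ a b G p := by
  have c1 := cont_XC η τ a b h.1
  have c2 := cont_sh c1 (η * 2 ^ a)
  have c3 : Continuous fun p : ℝ × ℝ =>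
      (1 / 2 : ℝ) • (XC η τ a b G p + XC η τ a b G (p.1 + η * 2 ^ a, p.2)) :=
    (c1.add c2).const_smul (1 / 2 : ℝ)
  have f1 := H908.cont_phi c1 fun p => XC_psd η τ a b G p
  have f2 := H908.cont_phi c2 fun p => XC_psd η τ a b G (p.1 + η * 2 ^ a, p.2)
  have f3 := H908.cont_phi c3 fun p => half_psd (XC_psd η τ a b G p)
    (XC_psd η τ a b G (p.1 + η * 2 ^ a, p.2))
  refine H908.integrable_cs ?_ (hcs_two (hcs_XC η τ a b h.2) (hcs_sh (hcs_XC η τ a b h.2) (η * 2 ^ a))
    fun p h1 h2 => by rw [dl, h1, h2, delt_zero, trace_zero])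
  unfold dl delt
  exact (f3.sub ((f1.add f2).const_smul (1 / 2 : ℝ))).matrix_trace

theorem ii_cd (h : CC G) (η τ : ℝ) (a b : ℕ) : Integrable fun p => cd η τ a b G p := by
  have f1 := H908.cont_phi (cont_XS η τ a b h.1) fun p => XS_psd η τ a b G p
  refine H908.integrable_cs ?_ (H908.hcs_of_zero (hcs_XS η τ a b h.2) fun p hp => by
    rw [cd, hp, phi_zero, Matrix.zero_mul, trace_zero])
  unfold cd
  exact (f1.matrix_mul ((continuous_const.matrix_mul f1).matrix_mul
    continuous_const)).matrix_trace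

theorem ii_sd (h : CC G) (η τ : ℝ) (k : ℕ) (u : ℝ) : Integrable fun p => sd η τ k u G p := by
  have c1 := cont_XC η τ k k h.1
  have c2 := cont_sh c1 u
  have f1 := H908.cont_phi c1 fun p => XC_psd η τ k k G p
  have f2 := H908.cont_phi c2 fun p => XC_psd η τ k k G (p.1 + u, p.2)
  refine H908.integrable_cs ?_ (hcs_two (hcs_XC η τ k k h.2) (hcs_sh (hcs_XC η τ k k h.2) u)
    fun p h1 h2 => by rw [sd, h1, h2, sub_self, Matrix.zero_mul, trace_zero])
  unfold sd
  exact ((f2.sub f1).matrix_mul (f2.sub f1)).matrix_trace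

theorem ii_mx (hF : CC F) (hH : CC H) (η τ : ℝ) (a b c : ℕ) (s : ℝ) :
    Integrable fun p => mx η τ a b c F H s p := by
  have f1 := H908.cont_phi (cont_XC η τ a b hF.1) fun p => XC_psd η τ a b F p
  have c2 : Continuous fun p : ℝ × ℝ => XC η τ c b (flip H) (s - p.1 - p.2, p.2) :=
    (cont_XC η τ c b hH.flip.1).comp (by fun_prop)
  have f2 := H908.cont_phi c2 fun p => XC_psd η τ c b (flip H) (s - p.1 - p.2, p.2)
  refine H908.integrable_cs ?_ (H908.hcs_of_zero (hcs_XC η τ a b hF.2) fun p hp => by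
    rw [mx, hp, phi_zero, Matrix.zero_mul, trace_zero])
  unfold mx
  exact (f1.matrix_mul f2).matrix_trace

theorem ii_mn (hF : CC F) (hH : CC H) (η τ : ℝ) (k : ℕ) (s : ℝ) :
    Integrable fun p => mn η τ k F H s p := by
  refine H908.integrable_cs (H908.cont_mn η τ k hF.1 hH.1 s)
    (H908.hcs_of_zero (hcs_XS η τ (k + 1) k hF.2) fun p hp => by
      rw [mn, hp, phi_zero, Matrix.zero_mul, trace_zero])

theorem ii_hh (h : CC G) (τ : ℝ) : Integrable fun p => hh (G p ^ 2 / τ ^ 2) :=
  H908.hh_int h τ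

end dens

end Vale.Agent.P075.R
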