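import Vale.Agent.P075.R.Defs

/-!
# Pointwise inequalities for the Bellman step
-/

namespace Vale.Agent.P075.R

open Matrix Vale.Agent.P075

variable {n m : Type*} [Fintype n] [DecidableEq n] [Fintype m] [DecidableEq m]

/-! ### abstract inequalities -/

theorem GX_row {X₀ X₁ : Matrix n n ℝ} (h0 : X₀.PosSemidef) (h1 : X₁.PosSemidef) :
    GX ((1 / 2 : ℝ) • (X₀ + X₁)) + (1 / 2) * (delt X₀ X₁).trace ≤ (1 / 2) * (GX X₀ + GX X₁) := by
  have h := ld_mean h0 h1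
  simp only [GX, trace_smul, trace_add, smul_eq_mul]
  linarith

theorem refl_add (X : Matrix (m ⊕ m) (m ⊕ m) ℝ) :
    X + rad m * X * rad m = bd ((2 : ℝ) • X.toBlocks₁₁) ((2 : ℝ) • X.toBlocks₂₂) := by
  conv_lhs => rw [← fromBlocks_toBlocks X]
  simp only [rad, bd, fromBlocks_multiply, fromBlocks_add, Matrix.one_mul, Matrix.mul_one,
    Matrix.zero_mul, Matrix.mul_zero, add_zero, zero_add, Matrix.mul_neg, Matrix.neg_mul, neg_neg]
  congr 1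
  · module
  · simp
  · simp
  · module

theorem GX_col {X : Matrix (m ⊕ m) (m ⊕ m) ℝ} {A D : Matrix m m ℝ} (hX : X.PosSemidef)
    (hA : A.PosSemidef) (hD : D.PosSemidef) (hs : X + rad m * X * rad m = bd A D) :
    GX X + (1 / 2) * (phi X * (rad m * phi X * rad m)).trace ≤ (1 / 2) * (GX A + GX D) := by
  have hX' := refl_psd hX (rad_symm (m := m))
  have ea : phi (rad m * X * rad m) = rad m * phi X * rad m := phi_refl hX rad_symm rad_sq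
  have h1 := ld_add_le hX hX'
  have hldr : ld (rad m * X * rad m) = ld X := by
    rw [ld, ld]
    congr 1
    have : (1 : Matrix (m ⊕ m) (m ⊕ m) ℝ) + rad m * X * rad m = rad m * (1 + X) * rad m := by
      rw [Matrix.mul_add, Matrix.add_mul, Matrix.mul_one, rad_sq]
    rw [this, det_mul, det_mul]
    have hd : (rad m).det * (rad m).det = 1 := by
      rw [← det_mul, rad_sq, det_one]
    calc (rad m).det * (1 + X).det * (rad m).det
        = ((rad m).det * (rad m).det) * (1 + X).det := by ring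
      _ = (1 + X).det := by rw [hd, one_mul]
  have htr : (rad m * X * rad m).trace = X.trace := by
    rw [Matrix.mul_assoc, trace_mul_comm, Matrix.mul_assoc, rad_sq, Matrix.mul_one]
  have htr2 : 2 * X.trace = A.trace + D.trace := by
    have := congrArg trace hs
    rw [trace_add, htr, trace_bd] at this
    linarith
  rw [hldr, ea, hs, ld_bd hA hD] at h1
  simp only [GX]
  linarith

theorem delt_le_one {X₀ X₁ : Matrix n n ℝ} (h0 : X₀.PosSemidef) (h1 : X₁.PosSemidef) :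
    (1 - delt X₀ X₁).PosSemidef := by
  have e : 1 - delt X₀ X₁ = (1 - phi ((1 / 2 : ℝ) • (X₀ + X₁))) + (1 / 2 : ℝ) • (phi X₀ + phi X₁) := by
    rw [delt]; abel
  rw [e]
  exact (one_sub_phi_psd (half_psd h0 h1)).add (((phi_psd h0).add (phi_psd h1)).smul (by norm_num))

theorem delt_sq_le {X₀ X₁ : Matrix n n ℝ} (h0 : X₀.PosSemidef) (h1 : X₁.PosSemidef) :
    (delt X₀ X₁ * delt X₀ X₁).trace ≤ (delt X₀ X₁).trace := by
  have h := trace_mul_le_right (delt_psd h0 h1) (delt_le_one h0 h1)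
  rwa [Matrix.mul_one] at h

theorem delt_symm {X₀ X₁ : Matrix n n ℝ} (h0 : X₀.PosSemidef) (h1 : X₁.PosSemidef) :
    (delt X₀ X₁)ᵀ = delt X₀ X₁ := psd_isSymm (delt_psd h0 h1)

theorem hdiff_symm {X₀ X₁ : Matrix n n ℝ} (h0 : X₀.PosSemidef) (h1 : X₁.PosSemidef) :
    (hdiff X₀ X₁)ᵀ = hdiff X₀ X₁ := by
  rw [hdiff, transpose_smul, transpose_sub, phi_symm h0, phi_symm h1]

theorem hdiff_sq_le {X₀ X₁ : Matrix n n ℝ} (h0 : X₀.PosSemidef) (h1 : X₁.PosSemidef) :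
    (hdiff X₀ X₁ * hdiff X₀ X₁).trace ≤ (delt X₀ X₁).trace := by
  have := (delt_sub_sq_psd h0 h1).trace_nonneg
  rw [trace_sub] at this
  linarith

/-- `tr (A+B)² ≤ 2 tr A² + 2 tr B²` for symmetric matrices -/
theorem trace_sq_add_le {A B : Matrix n n ℝ} (hA : Aᵀ = A) (hB : Bᵀ = B) :
    ((A + B) * (A + B)).trace ≤ 2 * (A * A).trace + 2 * (B * B).trace := by
  have h := trace_sq_nonneg (B := A - B) (by rw [transpose_sub, hA, hB])
  have e : (A + B) * (A + B) + (A - B) * (A - B) = (2 : ℝ) • (A * A) + (2 : ℝ) • (B * B) := by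
    simp only [two_smul]; noncomm_ring
  have e2 := congrArg trace e
  rw [trace_add, trace_add, trace_smul, trace_smul, smul_eq_mul, smul_eq_mul] at e2
  linarith

/-- shift by half a box -/
theorem shift_sq_le {Z₀ Z₁ Z₂ : Matrix n n ℝ} (h0 : Z₀.PosSemidef) (h1 : Z₁.PosSemidef)
    (h2 : Z₂.PosSemidef) :
    ((phi ((1 / 2 : ℝ) • (Z₁ + Z₂)) - phi ((1 / 2 : ℝ) • (Z₀ + Z₁)))
      * (phi ((1 / 2 : ℝ) • (Z₁ + Z₂)) - phi ((1 / 2 : ℝ) • (Z₀ + Z₁)))).trace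
      ≤ 8 * ((delt Z₀ Z₁).trace + (delt Z₁ Z₂).trace) := by
  have e : phi ((1 / 2 : ℝ) • (Z₁ + Z₂)) - phi ((1 / 2 : ℝ) • (Z₀ + Z₁))
      = (delt Z₁ Z₂ + -hdiff Z₀ Z₁) + (-delt Z₀ Z₁ + -hdiff Z₁ Z₂) := by
    simp only [delt, hdiff]
    module
  have s1 := delt_symm h1 h2
  have s2 : (-hdiff Z₀ Z₁)ᵀ = -hdiff Z₀ Z₁ := by rw [transpose_neg, hdiff_symm h0 h1]
  have s3 : (-delt Z₀ Z₁)ᵀ = -delt Z₀ Z₁ := by rw [transpose_neg, delt_symm h0 h1]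
  have s4 : (-hdiff Z₁ Z₂)ᵀ = -hdiff Z₁ Z₂ := by rw [transpose_neg, hdiff_symm h1 h2]
  have t1 := trace_sq_add_le s1 s2
  have t2 := trace_sq_add_le s3 s4
  have t3 := trace_sq_add_le (A := delt Z₁ Z₂ + -hdiff Z₀ Z₁) (B := -delt Z₀ Z₁ + -hdiff Z₁ Z₂)
    (by rw [transpose_add, s1, s2]) (by rw [transpose_add, s3, s4])
  rw [e]
  have q1 := delt_sq_le h1 h2
  have q2 := delt_sq_le h0 h1
  have q3 := hdiff_sq_le h0 h1
  have q4 := hdiff_sq_le h1 h2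
  rw [neg_mul_neg] at t1 t2
  rw [neg_mul_neg] at t2
  linarith

/-- mixed second difference -/
theorem mixed_diff_le {A A' B B' : Matrix n n ℝ} (hA : Aᵀ = A) (hA' : A'ᵀ = A') (hB : Bᵀ = B)
    (hB' : B'ᵀ = B') :
    (A' * B).trace + (A * B').trace - (A * B).trace - (A' * B').trace
      ≤ (1 / 2) * ((A' - A) * (A' - A)).trace + (1 / 2) * ((B' - B) * (B' - B)).trace := by
  have h := trace_sq_nonneg (B := (A' - A) + (B' - B))
    (by simp only [transpose_add, transpose_sub, hA, hA', hB, hB'])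
  have e1 : ((A' - A) + (B' - B)) * ((A' - A) + (B' - B)) = (A' - A) * (A' - A)
      + (B' - B) * (B' - B) + ((A' - A) * (B' - B) + (B' - B) * (A' - A)) := by noncomm_ring
  rw [e1, trace_add, trace_add, trace_add, trace_mul_comm (B' - B) (A' - A)] at h
  have e2 : (A' - A) * (B' - B) = A' * B' - A' * B - A * B' + A * B := by noncomm_ring
  have e3 : ((A' - A) * (B' - B)).trace
      = (A' * B').trace - (A' * B).trace - (A * B').trace + (A * B).trace := by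
    rw [e2, trace_add, trace_sub, trace_sub]
  linarith

/-! ### the sampled Gram matrices -/

variable {η τ : ℝ}

theorem XC_psd (η τ : ℝ) (a b : ℕ) (G : ℝ × ℝ → ℝ) (p : ℝ × ℝ) :
    (XC η τ a b G p).PosSemidef :=
  (psd_transpose_mul (smp η a b G p)).smul (by positivity)

theorem XS_psd (η τ : ℝ) (a b : ℕ) (G : ℝ × ℝ → ℝ) (p : ℝ × ℝ) :
    (XS η τ a b G p).PosSemidef := XC_psd η τ a (b + 1) G p

theorem XC_apply (η τ : ℝ) (a b : ℕ) (G : ℝ × ℝ → ℝ) (p : ℝ × ℝ) (j j' : Ix b) :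
    XC η τ a b G p j j' = ((2 : ℝ) ^ a * 2 ^ b * τ ^ 2)⁻¹ *
      ∑ i : Ix a, G (p.1 + η * val a i, p.2 + η * val b j)
        * G (p.1 + η * val a i, p.2 + η * val b j') := by
  simp only [XC, Matrix.smul_apply, smul_eq_mul, Matrix.mul_apply, Matrix.transpose_apply, smp]

theorem sum_Ix_succ (a : ℕ) (f : ℕ → ℝ) : ∑ i : Ix (a + 1), f (val (a + 1) i)
    = ∑ i : Ix a, f (val a i) + ∑ i : Ix a, f (2 ^ a + val a i) := by
  have h1 : ∑ i : Ix (a + 1), f (val (a + 1) i)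
      = ∑ i : Ix a ⊕ Ix a, f (val (a + 1) i) := rfl
  rw [h1, Fintype.sum_sum_type]
  rfl

theorem XC_row (η τ : ℝ) (a b : ℕ) (G : ℝ × ℝ → ℝ) (p : ℝ × ℝ) :
    XC η τ (a + 1) b G p
      = (1 / 2 : ℝ) • (XC η τ a b G p + XC η τ a b G (p.1 + η * 2 ^ a, p.2)) := by
  ext j j'
  rw [XC_apply, Matrix.smul_apply, Matrix.add_apply, XC_apply, XC_apply, smul_eq_mul]
  rw [sum_Ix_succ a (fun v => G (p.1 + η * v, p.2 + η * val b j)
        * G (p.1 + η * v, p.2 + η * val b j'))]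
  have e : ∀ i : Ix a, p.1 + η * ((2 ^ a + val a i : ℕ) : ℝ) = p.1 + η * 2 ^ a + η * val a i := by
    intro i; push_cast; ring
  simp only [e]
  rw [← mul_add, pow_succ]
  have : ((2 : ℝ) ^ a * 2 * 2 ^ b * τ ^ 2)⁻¹ = (1 / 2) * ((2 : ℝ) ^ a * 2 ^ b * τ ^ 2)⁻¹ := by
    rw [show (2 : ℝ) ^ a * 2 * 2 ^ b * τ ^ 2 = 2 * ((2 : ℝ) ^ a * 2 ^ b * τ ^ 2) by ring, mul_inv]
    norm_num
  rw [this, mul_assoc]

theorem XS_ll (η τ : ℝ) (a b : ℕ) (G : ℝ × ℝ → ℝ) (p : ℝ × ℝ) :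
    (XS η τ a b G p).toBlocks₁₁ = (1 / 2 : ℝ) • XC η τ a b G p := by
  ext j j'
  have h : (XS η τ a b G p).toBlocks₁₁ j j' = ((2 : ℝ) ^ a * 2 ^ (b + 1) * τ ^ 2)⁻¹ *
      ∑ i : Ix a, G (p.1 + η * val a i, p.2 + η * val b j)
        * G (p.1 + η * val a i, p.2 + η * val b j') :=
    XC_apply η τ a (b + 1) G p (Sum.inl j) (Sum.inl j')
  rw [h, Matrix.smul_apply, XC_apply, smul_eq_mul, pow_succ]
  have : ((2 : ℝ) ^ a * (2 ^ b * 2) * τ ^ 2)⁻¹ = (1 / 2) * ((2 : ℝ) ^ a * 2 ^ b * τ ^ 2)⁻¹ := by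
    rw [show (2 : ℝ) ^ a * (2 ^ b * 2) * τ ^ 2 = 2 * ((2 : ℝ) ^ a * 2 ^ b * τ ^ 2) by ring, mul_inv]
    norm_num
  rw [this, mul_assoc]

theorem XS_rr (η τ : ℝ) (a b : ℕ) (G : ℝ × ℝ → ℝ) (p : ℝ × ℝ) :
    (XS η τ a b G p).toBlocks₂₂ = (1 / 2 : ℝ) • XC η τ a b G (p.1, p.2 + η * 2 ^ b) := by
  ext j j'
  have h : (XS η τ a b G p).toBlocks₂₂ j j' = ((2 : ℝ) ^ a * 2 ^ (b + 1) * τ ^ 2)⁻¹ *
      ∑ i : Ix a, G (p.1 + η * val a i, p.2 + η * ((2 ^ b + val b j : ℕ) : ℝ))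
        * G (p.1 + η * val a i, p.2 + η * ((2 ^ b + val b j' : ℕ) : ℝ)) :=
    XC_apply η τ a (b + 1) G p (Sum.inr j) (Sum.inr j')
  rw [h, Matrix.smul_apply, XC_apply, smul_eq_mul, pow_succ]
  have e : ∀ j : Ix b, p.2 + η * ((2 ^ b + val b j : ℕ) : ℝ)
      = p.2 + η * 2 ^ b + η * val b j := by
    intro j
    push_cast; ring
  rw [e, e]
  have : ((2 : ℝ) ^ a * (2 ^ b * 2) * τ ^ 2)⁻¹ = (1 / 2) * ((2 : ℝ) ^ a * 2 ^ b * τ ^ 2)⁻¹ := by
    rw [show (2 : ℝ) ^ a * (2 ^ b * 2) * τ ^ 2 = 2 * ((2 : ℝ) ^ a * 2 ^ b * τ ^ 2) by ring, mul_inv]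
    norm_num
  rw [this, mul_assoc]

theorem XS_split (η τ : ℝ) (a b : ℕ) (G : ℝ × ℝ → ℝ) (p : ℝ × ℝ) :
    XS η τ a b G p + rad (Ix b) * XS η τ a b G p * rad (Ix b)
      = bd (XC η τ a b G p) (XC η τ a b G (p.1, p.2 + η * 2 ^ b)) := by
  rw [refl_add, XS_ll, XS_rr, smul_smul, smul_smul]
  norm_num

/-! ### densities -/

/-- row defect -/
noncomputable def dl (η τ : ℝ) (a b : ℕ) (G : ℝ × ℝ → ℝ) (p : ℝ × ℝ) : ℝ :=
  (delt (XC η τ a b G p) (XC η τ a b G (p.1 + η * 2 ^ a, p.2))).trace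

/-- column defect -/
noncomputable def cd (η τ : ℝ) (a b : ℕ) (G : ℝ × ℝ → ℝ) (p : ℝ × ℝ) : ℝ :=
  (phi (XS η τ a b G p) * (rad (Ix b) * phi (XS η τ a b G p) * rad (Ix b))).trace

/-- half shift defect -/
noncomputable def sd (η τ : ℝ) (k : ℕ) (u : ℝ) (G : ℝ × ℝ → ℝ) (p : ℝ × ℝ) : ℝ :=
  ((phi (XC η τ k k G (p.1 + u, p.2)) - phi (XC η τ k k G p))
    * (phi (XC η τ k k G (p.1 + u, p.2)) - phi (XC η τ k k G p))).trace

theorem row_pt (η τ : ℝ) (a b : ℕ) (G : ℝ × ℝ → ℝ) (p : ℝ × ℝ) :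
    GX (XC η τ (a + 1) b G p) + (1 / 2) * dl η τ a b G p
      ≤ (1 / 2) * (GX (XC η τ a b G p) + GX (XC η τ a b G (p.1 + η * 2 ^ a, p.2))) := by
  rw [XC_row]
  exact GX_row (XC_psd ..) (XC_psd ..)

theorem col_pt (η τ : ℝ) (a b : ℕ) (G : ℝ × ℝ → ℝ) (p : ℝ × ℝ) :
    GX (XC η τ a (b + 1) G p) + (1 / 2) * cd η τ a b G p
      ≤ (1 / 2) * (GX (XC η τ a b G p) + GX (XC η τ a b G (p.1, p.2 + η * 2 ^ b))) :=
  GX_col (XS_psd η τ a b G p) (XC_psd ..) (XC_psd ..) (XS_split η τ a b G p)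

theorem dl_nonneg (η τ : ℝ) (a b : ℕ) (G : ℝ × ℝ → ℝ) (p : ℝ × ℝ) : 0 ≤ dl η τ a b G p :=
  (delt_psd (XC_psd ..) (XC_psd ..)).trace_nonneg

theorem cd_nonneg (η τ : ℝ) (a b : ℕ) (G : ℝ × ℝ → ℝ) (p : ℝ × ℝ) : 0 ≤ cd η τ a b G p :=
  trace_mul_nonneg (phi_psd (XS_psd ..)) (psd_conj_symm (phi_psd (XS_psd ..)) rad_symm)

theorem mx_nonneg (η τ : ℝ) (a b c : ℕ) (F H : ℝ × ℝ → ℝ) (s : ℝ) (p : ℝ × ℝ) :
    0 ≤ mx η τ a b c F H s p :=
  trace_mul_nonneg (phi_psd (XC_psd ..)) (phi_psd (XC_psd ..))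

/-- y-split -/
theorem y_pt (η τ : ℝ) (k : ℕ) (F H : ℝ × ℝ → ℝ) (s : ℝ) (p : ℝ × ℝ) :
    mx η τ (k + 1) (k + 1) (k + 1) F H s p + (1 / 2) * mn η τ k F H s p
      ≤ (1 / 2) * (mx η τ (k + 1) k (k + 1) F H s p
          + mx η τ (k + 1) k (k + 1) F H (s + η * 2 ^ k) (p.1, p.2 + η * 2 ^ k))
        + 7 * (cd η τ (k + 1) k F p + cd η τ (k + 1) k (flip H) (s - p.1 - p.2, p.2)) := by
  have h := ysplit (XS_psd η τ (k + 1) k F p) (XS_psd η τ (k + 1) k (flip H) (s - p.1 - p.2, p.2))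
    (rad_symm (m := Ix k)) rad_sq
  rw [XS_split, XS_split, phi_bd (XC_psd ..) (XC_psd ..), phi_bd (XC_psd ..) (XC_psd ..), bd_mul,
    trace_bd] at h
  have e : s + η * 2 ^ k - p.1 - (p.2 + η * 2 ^ k) = s - p.1 - p.2 := by ring
  have h1 : mx η τ (k + 1) (k + 1) (k + 1) F H s p
      = (phi (XS η τ (k + 1) k F p) * phi (XS η τ (k + 1) k (flip H) (s - p.1 - p.2, p.2))).trace :=
    rfl
  rw [h1]
  simp only [mx, mn, cd, e]
  linarith

/-- x- and z-split with opposite pairing -/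
theorem xz_pt (η τ : ℝ) (k b : ℕ) (F H : ℝ × ℝ → ℝ) (s : ℝ) (p : ℝ × ℝ) :
    mx η τ (k + 1) b (k + 1) F H s p
      ≤ (1 / 2) * (mx η τ k b k F H (s + η * 2 ^ k) p
          + mx η τ k b k F H (s + η * 2 ^ k) (p.1 + η * 2 ^ k, p.2))
        + (3 / 2) * (dl η τ k b F p + dl η τ k b (flip H) (s - p.1 - p.2, p.2)) := by
  have h := xsplit (XC_psd η τ k b F p) (XC_psd η τ k b F (p.1 + η * 2 ^ k, p.2))
    (XC_psd η τ k b (flip H) (s - p.1 - p.2 + η * 2 ^ k, p.2))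
    (XC_psd η τ k b (flip H) (s - p.1 - p.2, p.2))
  have e1 : s + η * 2 ^ k - p.1 - p.2 = s - p.1 - p.2 + η * 2 ^ k := by ring
  have e2 : s + η * 2 ^ k - (p.1 + η * 2 ^ k) - p.2 = s - p.1 - p.2 := by ring
  simp only [mx, dl, XC_row η τ k b, e1, e2]
  rw [add_comm (XC η τ k b (flip H) (s - p.1 - p.2 + η * 2 ^ k, p.2)), delt_comm
    (XC η τ k b (flip H) (s - p.1 - p.2 + η * 2 ^ k, p.2))] at h
  linarith

/-- mixed second difference, pointwise -/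
theorem c_pt (η τ : ℝ) (k : ℕ) (F H : ℝ × ℝ → ℝ) (s u : ℝ) (p : ℝ × ℝ) :
    mx η τ k k k F H (s + u) (p.1 + u, p.2) + mx η τ k k k F H (s - u) p
      - mx η τ k k k F H s p - mx η τ k k k F H s (p.1 + u, p.2)
      ≤ (1 / 2) * sd η τ k u F p + (1 / 2) * sd η τ k u (flip H) (s - u - p.1 - p.2, p.2) := by
  have h := mixed_diff_le (A := phi (XC η τ k k F p)) (A' := phi (XC η τ k k F (p.1 + u, p.2)))
    (B := phi (XC η τ k k (flip H) (s - p.1 - p.2, p.2)))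
    (B' := phi (XC η τ k k (flip H) (s - u - p.1 - p.2, p.2)))
    (phi_symm (XC_psd ..)) (phi_symm (XC_psd ..)) (phi_symm (XC_psd ..)) (phi_symm (XC_psd ..))
  have e1 : s + u - (p.1 + u) - p.2 = s - p.1 - p.2 := by ring
  have e2 : s - (p.1 + u) - p.2 = s - u - p.1 - p.2 := by ring
  have e3 : s - u - p.1 - p.2 + u = s - p.1 - p.2 := by ring
  simp only [mx, sd, e1, e2, e3]
  have e4 : ((phi (XC η τ k k (flip H) (s - p.1 - p.2, p.2))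
      - phi (XC η τ k k (flip H) (s - u - p.1 - p.2, p.2)))
      * (phi (XC η τ k k (flip H) (s - p.1 - p.2, p.2))
      - phi (XC η τ k k (flip H) (s - u - p.1 - p.2, p.2)))).trace
      = ((phi (XC η τ k k (flip H) (s - u - p.1 - p.2, p.2))
      - phi (XC η τ k k (flip H) (s - p.1 - p.2, p.2)))
      * (phi (XC η τ k k (flip H) (s - u - p.1 - p.2, p.2))
      - phi (XC η τ k k (flip H) (s - p.1 - p.2, p.2)))).trace := by
    congr 1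
    noncomm_ring
  rw [e4]
  linarith

theorem sd_pt (η τ : ℝ) (j : ℕ) (G : ℝ × ℝ → ℝ) (p : ℝ × ℝ) :
    sd η τ (j + 1) (η * 2 ^ j) G p
      ≤ 8 * (dl η τ j (j + 1) G p + dl η τ j (j + 1) G (p.1 + η * 2 ^ j, p.2)) := by
  have h := shift_sq_le (XC_psd η τ j (j + 1) G p) (XC_psd η τ j (j + 1) G (p.1 + η * 2 ^ j, p.2))
    (XC_psd η τ j (j + 1) G (p.1 + η * 2 ^ j + η * 2 ^ j, p.2))
  simp only [sd, dl, XC_row η τ j (j + 1)]
  exact h

end Vale.Agent.P075.R
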