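import Vale.Agent.P075.R.Pt
import Vale.Agent.P075.R.Kit

/-!
# The Bellman step, integrated, and the block `StStep`
-/

namespace Vale.Agent.P075.R

open MeasureTheory Matrix Vale.Agent.P075

variable {F H G : ℝ × ℝ → ℝ}

theorem GX_nonneg {n : Type*} [Fintype n] [DecidableEq n] {X : Matrix n n ℝ}
    (hX : X.PosSemidef) : 0 ≤ GX X := by
  have h1 := det_le_exp (posDef_one_add hX).posSemidef
  have h2 := Real.log_le_log (det_pos_one_add hX) h1
  rw [Real.log_exp, trace_add, trace_one] at h2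
  rw [GX, ld]
  linarith

/-- integrated row split -/
theorem row_int (hG : CC G) (η τ : ℝ) (a b : ℕ) :
    En η τ (a + 1) b G + (1 / 2) * ∫ p, dl η τ a b G p ≤ En η τ a b G := by
  have i1 := ii_GX hG η τ (a + 1) b
  have i2 := ii_GX hG η τ a b
  have i3 := ii_dl hG η τ a b
  have i4 := ii_sh1 i2 (η * 2 ^ a)
  have h := integral_mono (μ := volume)
    (f := fun p => GX (XC η τ (a + 1) b G p) + (1 / 2) * dl η τ a b G p)
    (g := fun p => (1 / 2) * (GX (XC η τ a b G p) + GX (XC η τ a b G (p.1 + η * 2 ^ a, p.2))))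
    (i1.add (i3.const_mul _)) ((i2.add i4).const_mul _) (fun p => row_pt η τ a b G p)
  rw [integral_add i1 (i3.const_mul _), integral_const_mul, integral_const_mul,
    integral_add i2 i4, int_sh1 (η * 2 ^ a) (fun p => GX (XC η τ a b G p))] at h
  simp only [En]
  linarith

/-- integrated column split -/
theorem col_int (hG : CC G) (η τ : ℝ) (a b : ℕ) :
    En η τ a (b + 1) G + (1 / 2) * ∫ p, cd η τ a b G p ≤ En η τ a b G := by
  have i1 := ii_GX hG η τ a (b + 1)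
  have i2 := ii_GX hG η τ a b
  have i3 := ii_cd hG η τ a b
  have i4 := ii_sh2 i2 (η * 2 ^ b)
  have h := integral_mono (μ := volume)
    (f := fun p => GX (XC η τ a (b + 1) G p) + (1 / 2) * cd η τ a b G p)
    (g := fun p => (1 / 2) * (GX (XC η τ a b G p) + GX (XC η τ a b G (p.1, p.2 + η * 2 ^ b))))
    (i1.add (i3.const_mul _)) ((i2.add i4).const_mul _) (fun p => col_pt η τ a b G p)
  rw [integral_add i1 (i3.const_mul _), integral_const_mul, integral_const_mul,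
    integral_add i2 i4, int_sh2 (η * 2 ^ b) (fun p => GX (XC η τ a b G p))] at h
  simp only [En]
  linarith

theorem dl_int_nonneg (η τ : ℝ) (a b : ℕ) (G : ℝ × ℝ → ℝ) : 0 ≤ ∫ p, dl η τ a b G p :=
  integral_nonneg fun p => dl_nonneg η τ a b G p

theorem cd_int_nonneg (η τ : ℝ) (a b : ℕ) (G : ℝ × ℝ → ℝ) : 0 ≤ ∫ p, cd η τ a b G p :=
  integral_nonneg fun p => cd_nonneg η τ a b G p

theorem En_nonneg (η τ : ℝ) (a b : ℕ) (G : ℝ × ℝ → ℝ) : 0 ≤ En η τ a b G :=
  integral_nonneg fun p => GX_nonneg (XC_psd η τ a b G p)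

theorem Mx_nonneg (η τ : ℝ) (a b c : ℕ) (F H : ℝ × ℝ → ℝ) (s : ℝ) : 0 ≤ Mx η τ a b c F H s :=
  integral_nonneg fun p => mx_nonneg η τ a b c F H s p

theorem mn_nonneg (η τ : ℝ) (k : ℕ) (F H : ℝ × ℝ → ℝ) (s : ℝ) (p : ℝ × ℝ) :
    0 ≤ mn η τ k F H s p :=
  trace_mul_nonneg (phi_psd (XS_psd ..)) (psd_conj_symm (phi_psd (XS_psd ..)) rad_symm)

/-- integrated y-split -/
theorem y_int (hF : CC F) (hH : CC H) (η τ : ℝ) (k : ℕ) (s : ℝ) :
    Mx η τ (k + 1) (k + 1) (k + 1) F H s + (1 / 2) * ∫ p, mn η τ k F H s p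
      ≤ (1 / 2) * (Mx η τ (k + 1) k (k + 1) F H s
          + Mx η τ (k + 1) k (k + 1) F H (s + η * 2 ^ k))
        + 7 * ((∫ p, cd η τ (k + 1) k F p) + ∫ p, cd η τ (k + 1) k (flip H) p) := by
  have i1 := ii_mx hF hH η τ (k + 1) (k + 1) (k + 1) s
  have i2 := ii_mn hF hH η τ k s
  have i3 := ii_mx hF hH η τ (k + 1) k (k + 1) s
  have i4' := ii_mx hF hH η τ (k + 1) k (k + 1) (s + η * 2 ^ k)
  have i4 := ii_sh2 i4' (η * 2 ^ k)
  have i5 := ii_cd hF η τ (k + 1) k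
  have i6' := ii_cd hH.flip η τ (k + 1) k
  have i6 := ii_pl i6' s
  have h := integral_mono (μ := volume)
    (f := fun p => mx η τ (k + 1) (k + 1) (k + 1) F H s p + (1 / 2) * mn η τ k F H s p)
    (g := fun p => (1 / 2) * (mx η τ (k + 1) k (k + 1) F H s p
          + mx η τ (k + 1) k (k + 1) F H (s + η * 2 ^ k) (p.1, p.2 + η * 2 ^ k))
        + 7 * (cd η τ (k + 1) k F p + cd η τ (k + 1) k (flip H) (s - p.1 - p.2, p.2)))
    (i1.add (i2.const_mul _)) (((i3.add i4).const_mul _).add ((i5.add i6).const_mul _))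
    (fun p => y_pt η τ k F H s p)
  have j1 : Integrable (fun p => (1 / 2) * (mx η τ (k + 1) k (k + 1) F H s p
      + mx η τ (k + 1) k (k + 1) F H (s + η * 2 ^ k) (p.1, p.2 + η * 2 ^ k))) volume :=
    (i3.add i4).const_mul _
  have j2 : Integrable (fun p => 7 * (cd η τ (k + 1) k F p
      + cd η τ (k + 1) k (flip H) (s - p.1 - p.2, p.2))) volume := (i5.add i6).const_mul _
  rw [integral_add i1 (i2.const_mul _), integral_const_mul,
    integral_add j1 j2, integral_const_mul,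
    integral_const_mul, integral_add i3 i4, integral_add i5 i6,
    int_sh2 (η * 2 ^ k) (fun p => mx η τ (k + 1) k (k + 1) F H (s + η * 2 ^ k) p),
    int_pl s (fun p => cd η τ (k + 1) k (flip H) p)] at h
  simp only [Mx]
  exact h

/-- integrated x- and z-split -/
theorem xz_int (hF : CC F) (hH : CC H) (η τ : ℝ) (k b : ℕ) (s : ℝ) :
    Mx η τ (k + 1) b (k + 1) F H s ≤ Mx η τ k b k F H (s + η * 2 ^ k)
        + (3 / 2) * ((∫ p, dl η τ k b F p) + ∫ p, dl η τ k b (flip H) p) := by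
  have i1 := ii_mx hF hH η τ (k + 1) b (k + 1) s
  have i2 := ii_mx hF hH η τ k b k (s + η * 2 ^ k)
  have i3 := ii_sh1 i2 (η * 2 ^ k)
  have i5 := ii_dl hF η τ k b
  have i6' := ii_dl hH.flip η τ k b
  have i6 := ii_pl i6' s
  have h := integral_mono (μ := volume)
    (f := fun p => mx η τ (k + 1) b (k + 1) F H s p)
    (g := fun p => (1 / 2) * (mx η τ k b k F H (s + η * 2 ^ k) p
          + mx η τ k b k F H (s + η * 2 ^ k) (p.1 + η * 2 ^ k, p.2))
        + (3 / 2) * (dl η τ k b F p + dl η τ k b (flip H) (s - p.1 - p.2, p.2)))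
    i1 (((i2.add i3).const_mul _).add ((i5.add i6).const_mul _))
    (fun p => xz_pt η τ k b F H s p)
  have j1 : Integrable (fun p => (1 / 2) * (mx η τ k b k F H (s + η * 2 ^ k) p
      + mx η τ k b k F H (s + η * 2 ^ k) (p.1 + η * 2 ^ k, p.2))) volume :=
    (i2.add i3).const_mul _
  have j2 : Integrable (fun p => (3 / 2) * (dl η τ k b F p
      + dl η τ k b (flip H) (s - p.1 - p.2, p.2))) volume := (i5.add i6).const_mul _
  rw [integral_add j1 j2, integral_const_mul,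
    integral_const_mul, integral_add i2 i3, integral_add i5 i6,
    int_sh1 (η * 2 ^ k) (fun p => mx η τ k b k F H (s + η * 2 ^ k) p),
    int_pl s (fun p => dl η τ k b (flip H) p)] at h
  simp only [Mx]
  linarith

/-- integrated mixed second difference -/
theorem c_int (hF : CC F) (hH : CC H) (η τ : ℝ) (k : ℕ) (s u : ℝ) :
    Mx η τ k k k F H (s + u) + Mx η τ k k k F H (s - u) ≤ 2 * Mx η τ k k k F H s
      + (1 / 2) * ((∫ p, sd η τ k u F p) + ∫ p, sd η τ k u (flip H) p) := by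
  have i1' := ii_mx hF hH η τ k k k (s + u)
  have i1 := ii_sh1 i1' u
  have i2 := ii_mx hF hH η τ k k k (s - u)
  have i3 := ii_mx hF hH η τ k k k s
  have i4 := ii_sh1 i3 u
  have i5 := ii_sd hF η τ k u
  have i6' := ii_sd hH.flip η τ k u
  have i6 := ii_pl i6' (s - u)
  have h := integral_mono (μ := volume)
    (f := fun p => mx η τ k k k F H (s + u) (p.1 + u, p.2) + mx η τ k k k F H (s - u) p
      - mx η τ k k k F H s p - mx η τ k k k F H s (p.1 + u, p.2))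
    (g := fun p => (1 / 2) * sd η τ k u F p
      + (1 / 2) * sd η τ k u (flip H) (s - u - p.1 - p.2, p.2))
    (((i1.add i2).sub i3).sub i4) ((i5.const_mul _).add (i6.const_mul _))
    (fun p => c_pt η τ k F H s u p)
  have j1 : Integrable (fun p => mx η τ k k k F H (s + u) (p.1 + u, p.2)
      + mx η τ k k k F H (s - u) p) volume := i1.add i2
  have j2 : Integrable (fun p => mx η τ k k k F H (s + u) (p.1 + u, p.2)
      + mx η τ k k k F H (s - u) p - mx η τ k k k F H s p) volume := j1.sub i3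
  rw [integral_sub j2 i4, integral_sub j1 i3, integral_add i1 i2,
    integral_add (i5.const_mul _) (i6.const_mul _), integral_const_mul, integral_const_mul,
    int_sh1 u (fun p => mx η τ k k k F H (s + u) p), int_sh1 u (fun p => mx η τ k k k F H s p),
    int_pl (s - u) (fun p => sd η τ k u (flip H) p)] at h
  simp only [Mx]
  linarith

theorem sd_int (hG : CC G) (η τ : ℝ) (j : ℕ) :
    ∫ p, sd η τ (j + 1) (η * 2 ^ j) G p ≤ 16 * ∫ p, dl η τ j (j + 1) G p := by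
  have i1 := ii_sd hG η τ (j + 1) (η * 2 ^ j)
  have i2 := ii_dl hG η τ j (j + 1)
  have i3 := ii_sh1 i2 (η * 2 ^ j)
  have h := integral_mono (μ := volume)
    (f := fun p => sd η τ (j + 1) (η * 2 ^ j) G p)
    (g := fun p => 8 * (dl η τ j (j + 1) G p + dl η τ j (j + 1) G (p.1 + η * 2 ^ j, p.2)))
    i1 ((i2.add i3).const_mul _) (fun p => sd_pt η τ j G p)
  rw [integral_const_mul, integral_add i2 i3,
    int_sh1 (η * 2 ^ j) (fun p => dl η τ j (j + 1) G p)] at h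
  linarith

/-- sum of the two energies -/
noncomputable def ep (η τ : ℝ) (k : ℕ) (F H : ℝ × ℝ → ℝ) : ℝ :=
  En η τ k k F + En η τ k k (flip H)

theorem ep_nonneg (η τ : ℝ) (k : ℕ) (F H : ℝ × ℝ → ℝ) : 0 ≤ ep η τ k F H :=
  add_nonneg (En_nonneg ..) (En_nonneg ..)

/-- step (AB) -/
theorem ab_step (hF : CC F) (hH : CC H) (η τ : ℝ) (k : ℕ) (s : ℝ) :
    Mx η τ (k + 1) (k + 1) (k + 1) F H s + (1 / 2) * ∫ p, mn η τ k F H s p
      ≤ (1 / 2) * (Mx η τ k k k F H (s + η * 2 ^ k) + Mx η τ k k k F H (s + 2 * (η * 2 ^ k)))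
        + 14 * (ep η τ k F H - ep η τ (k + 1) F H) := by
  have h1 := y_int hF hH η τ k s
  have h2 := xz_int hF hH η τ k k s
  have h3 := xz_int hF hH η τ k k (s + η * 2 ^ k)
  rw [show s + η * 2 ^ k + η * 2 ^ k = s + 2 * (η * 2 ^ k) by ring] at h3
  have r1 := row_int hF η τ k k
  have r2 := row_int hH.flip η τ k k
  have c1 := col_int hF η τ (k + 1) k
  have c2 := col_int hH.flip η τ (k + 1) k
  have d1 := dl_int_nonneg η τ k k F
  have d2 := dl_int_nonneg η τ k k (flip H)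
  simp only [ep]
  linarith

/-- step (C) -/
theorem c_step (hF : CC F) (hH : CC H) (η τ : ℝ) (j : ℕ) (s : ℝ) :
    (1 / 2) * (Mx η τ (j + 1) (j + 1) (j + 1) F H (s - η * 2 ^ j)
        + Mx η τ (j + 1) (j + 1) (j + 1) F H (s + η * 2 ^ j))
      ≤ Mx η τ (j + 1) (j + 1) (j + 1) F H s + 8 * (ep η τ j F H - ep η τ (j + 1) F H) := by
  have h := c_int hF hH η τ (j + 1) s (η * 2 ^ j)
  have s1 := sd_int hF η τ j
  have s2 := sd_int hH.flip η τ j
  have r1 := row_int hF η τ j (j + 1)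
  have r2 := row_int hH.flip η τ j (j + 1)
  have c1 := col_int hF η τ j j
  have c2 := col_int hH.flip η τ j j
  have d1 := cd_int_nonneg η τ j j F
  have d2 := cd_int_nonneg η τ j j (flip H)
  simp only [ep]
  linarith

/-- the Bellman function at scale `j+1` -/
noncomputable def Be (η τ : ℝ) (F H : ℝ × ℝ → ℝ) (j : ℕ) : ℝ :=
  Mx η τ (j + 1) (j + 1) (j + 1) F H (-3 * 2 ^ j * η) + 14 * ep η τ (j + 1) F H
    + 8 * ep η τ j F H

theorem Be_nonneg (η τ : ℝ) (F H : ℝ × ℝ → ℝ) (j : ℕ) : 0 ≤ Be η τ F H j := by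
  have := Mx_nonneg η τ (j + 1) (j + 1) (j + 1) F H (-3 * 2 ^ j * η)
  have := ep_nonneg η τ (j + 1) F H
  have := ep_nonneg η τ j F H
  unfold Be
  linarith

theorem Be_step (hF : CC F) (hH : CC H) (η τ : ℝ) (j : ℕ) :
    Be η τ F H (j + 1) + (1 / 2) * ∫ p, mn η τ (j + 1) F H (-3 * 2 ^ (j + 1) * η) p
      ≤ Be η τ F H j := by
  have h1 := ab_step hF hH η τ (j + 1) (-3 * 2 ^ (j + 1) * η)
  have h2 := c_step hF hH η τ j (-3 * 2 ^ j * η)
  rw [show -3 * 2 ^ (j + 1) * η + η * 2 ^ (j + 1) = -3 * 2 ^ j * η - η * 2 ^ j by ring,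
    show -3 * 2 ^ (j + 1) * η + 2 * (η * 2 ^ (j + 1)) = -3 * 2 ^ j * η + η * 2 ^ j by ring] at h1
  simp only [Be]
  linarith

theorem Be_zero (hF : CC F) (hH : CC H) (η τ : ℝ) :
    Be η τ F H 0 ≤ (1 / 2) * (Mx η τ 0 0 0 F H (-2 * η) + Mx η τ 0 0 0 F H (-η))
      + 22 * ep η τ 0 F H := by
  have h1 := ab_step hF hH η τ 0 (-3 * 2 ^ 0 * η)
  rw [show -3 * 2 ^ 0 * η + η * 2 ^ 0 = -2 * η by ring,
    show -3 * 2 ^ 0 * η + 2 * (η * 2 ^ 0) = -η by ring] at h1
  have h2 : 0 ≤ ∫ p, mn η τ 0 F H (-3 * 2 ^ 0 * η) p := integral_nonneg fun p => mn_nonneg ..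
  have h3 : Be η τ F H 0 = Mx η τ (0 + 1) (0 + 1) (0 + 1) F H (-3 * 2 ^ 0 * η)
      + 14 * ep η τ (0 + 1) F H + 8 * ep η τ 0 F H := rfl
  rw [h3]
  generalize (∫ p, mn η τ 0 F H (-3 * 2 ^ 0 * η) p) = A at h1 h2
  linarith

theorem Be_sum (hF : CC F) (hH : CC H) (η τ : ℝ) (n : ℕ) :
    Be η τ F H n + (1 / 2) * ∑ k ∈ Finset.Icc 1 n, ∫ p, mn η τ k F H (-3 * 2 ^ k * η) p
      ≤ Be η τ F H 0 := by
  induction n with
  | zero => simp
  | succ n ih =>
    have h := Be_step hF hH η τ n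
    rw [Finset.sum_Icc_succ_top (by omega)]
    linarith

/-! ### size zero -/

theorem XC_zero_apply (η τ : ℝ) (G : ℝ × ℝ → ℝ) (p : ℝ × ℝ) (j j' : Ix 0) :
    XC η τ 0 0 G p j j' = G p ^ 2 / τ ^ 2 := by
  rw [XC_apply]
  have h : ∀ i : Ix 0, val 0 i = 0 := fun _ => rfl
  have h2 : ∑ i : Ix 0, G (p.1 + η * val 0 i, p.2 + η * val 0 j)
        * G (p.1 + η * val 0 i, p.2 + η * val 0 j') = G p * G p := by
    have : ∑ i : Ix 0, G (p.1 + η * val 0 i, p.2 + η * val 0 j)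
        * G (p.1 + η * val 0 i, p.2 + η * val 0 j') = ∑ i : Unit, G p * G p := by
      refine Finset.sum_congr rfl fun i _ => ?_
      rw [h, h, h]
      simp
    rw [this]; simp
  rw [h2]
  simp only [pow_zero, one_mul]
  rw [inv_mul_eq_div, ← sq]

theorem GX_unit (X : Matrix Unit Unit ℝ) : GX X = X () () - Real.log (1 + X () ()) := by
  rw [GX, ld, trace_unit, Matrix.det_unique, Matrix.add_apply, Matrix.one_apply_eq]

/-- the index of size zero -/
def u0 : Ix 0 := ()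

theorem GX_zero_le (η : ℝ) {τ : ℝ} (G : ℝ × ℝ → ℝ) (p : ℝ × ℝ) :
    GX (XC η τ 0 0 G p) ≤ hh (G p ^ 2 / τ ^ 2) := by
  have h : GX (XC η τ 0 0 G p) = XC η τ 0 0 G p u0 u0 - Real.log (1 + XC η τ 0 0 G p u0 u0) :=
    GX_unit (XC η τ 0 0 G p)
  rw [h, XC_zero_apply]
  exact sub_log_le (by positivity)

theorem hh_nonneg {u : ℝ} (hu : 0 ≤ u) : 0 ≤ hh u := by
  unfold hh; positivity

theorem phi_mul_unit {X Y : Matrix Unit Unit ℝ} (hX : X.PosSemidef) (hY : Y.PosSemidef) :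
    (phi X * phi Y).trace ≤ (1 / 2) * (hh (X () ()) + hh (Y () ())) := by
  have hsq : ∀ u : ℝ, 0 ≤ u → (u / (1 + u)) ^ 2 ≤ hh u := by
    intro u hu
    unfold hh
    rw [div_pow]
    apply div_le_div_of_nonneg_left (by positivity) (by positivity)
    nlinarith
  rw [trace_unit, Matrix.mul_apply]
  simp only [Finset.univ_unique, PUnit.default_eq_unit, Finset.sum_singleton]
  rw [phi_unit hX, phi_unit hY]
  have h1 := hsq _ (unit_nonneg hX)
  have h2 := hsq _ (unit_nonneg hY)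
  nlinarith [sq_nonneg (X () () / (1 + X () ()) - Y () () / (1 + Y () ()))]

theorem mx_zero_le (η : ℝ) {τ : ℝ} (F H : ℝ × ℝ → ℝ) (s : ℝ) (p : ℝ × ℝ) :
    mx η τ 0 0 0 F H s p ≤ (1 / 2) * (hh (F p ^ 2 / τ ^ 2)
      + hh (flip H (s - p.1 - p.2, p.2) ^ 2 / τ ^ 2)) := by
  have h : mx η τ 0 0 0 F H s p ≤ (1 / 2) * (hh (XC η τ 0 0 F p u0 u0)
      + hh (XC η τ 0 0 (flip H) (s - p.1 - p.2, p.2) u0 u0)) :=
    phi_mul_unit (XC_psd η τ 0 0 F p) (XC_psd η τ 0 0 (flip H) (s - p.1 - p.2, p.2))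
  rwa [XC_zero_apply, XC_zero_apply] at h

theorem En_zero_le (hG : CC G) (η : ℝ) {τ : ℝ} :
    En η τ 0 0 G ≤ ∫ p, hh (G p ^ 2 / τ ^ 2) :=
  integral_mono (ii_GX hG η τ 0 0) (ii_hh hG τ) fun p => GX_zero_le η G p

theorem Mx_zero_le (hF : CC F) (hH : CC H) (η : ℝ) {τ : ℝ} (s : ℝ) :
    Mx η τ 0 0 0 F H s ≤ (1 / 2) * ((∫ p, hh (F p ^ 2 / τ ^ 2))
      + ∫ p, hh (flip H p ^ 2 / τ ^ 2)) := by
  have i1 := ii_hh hF τ
  have i2' := ii_hh hH.flip τ
  have i2 := ii_pl i2' s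
  have h := integral_mono (μ := volume)
    (f := fun p => mx η τ 0 0 0 F H s p)
    (g := fun p => (1 / 2) * (hh (F p ^ 2 / τ ^ 2)
      + hh (flip H (s - p.1 - p.2, p.2) ^ 2 / τ ^ 2)))
    (ii_mx hF hH η τ 0 0 0 s) ((i1.add i2).const_mul _) fun p => mx_zero_le η F H s p
  rw [integral_const_mul, integral_add i1 i2,
    int_pl s (fun p => hh (flip H p ^ 2 / τ ^ 2))] at h
  exact h

/-- block STEP -/
theorem step : StStep := by
  intro F H hF hH η τ _ _ n
  have h1 := Be_sum hF hH η τ n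
  have h2 := Be_zero hF hH η τ
  have h3 := Be_nonneg η τ F H n
  have h4 := Mx_zero_le hF hH η (τ := τ) (-2 * η)
  have h5 := Mx_zero_le hF hH η (τ := τ) (-η)
  have h6 := En_zero_le hF η (τ := τ)
  have h7 := En_zero_le hH.flip η (τ := τ)
  have h8 : ∫ p, hh (flip H p ^ 2 / τ ^ 2) = ∫ p, hh (H p ^ 2 / τ ^ 2) :=
    int_flip (fun p => hh (H p ^ 2 / τ ^ 2))
  rw [h8] at h4 h5 h7
  simp only [ep] at h2
  linarith

end Vale.Agent.P075.R
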